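import Mathlib
import Crest.Prelude.Def_MatchingPolytope
import Crest.Prelude.Def_MultiplicityCount

/-! Row 304 (S0467), entropy lower bound for weighted hafnians. -/

set_option autoImplicit false

namespace Crest.Agent.R304K

open Finset Crest.Matchings

/-- Edmonds' description of the perfect matching polytope (the non-trivial inclusion). -/
def EdmStmt : Prop :=
  ∀ (m k : ℕ) (ends : Fin k → Fin (2 * m) × Fin (2 * m)), (∀ e, (ends e).1 ≠ (ends e).2) →
    ∀ x : Fin k → ℝ, (∀ e, 0 ≤ x e) →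
      (∀ v, ∑ e ∈ univ.filter (fun e => (ends e).1 = v ∨ (ends e).2 = v), x e = 1) →
      (∀ S : Finset (Fin (2 * m)), Odd S.card →
        1 ≤ ∑ e ∈ univ.filter (fun e => ¬ ((ends e).1 ∈ S ↔ (ends e).2 ∈ S)), x e) →
      x ∈ pmPolytope ends

/-- The statement of S0465. -/
def EntStmt : Prop :=
  ∀ (m : ℕ), 1 ≤ m → ∀ (k : ℕ) (ends : Fin k → Fin (2 * m) × Fin (2 * m)),
    (∀ e, (ends e).1 ≠ (ends e).2) → ∀ (p : Finset (Fin k) → ℝ), IsMatchingLaw ends p →
    ∃ q : Finset (Fin k) → ℝ, IsMatchingLaw ends q ∧ (∀ e, marginal q e = marginal p e) ∧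
      ∑ e, Real.negMulLog (marginal p e) - (2 - 2 / (m : ℝ)) * ∑ e, Real.negMulLog (1 - marginal p e)
        ≤ lawEntropy q

/-- perfect matchings of the complete graph, as sets of pairs `i < j` -/
def PMs (n : ℕ) : Finset (Finset (Fin n × Fin n)) :=
  (ltPairs n).powerset.filter (fun M => ∀ v : Fin n,
      (M.filter fun q => q.1 = v ∨ q.2 = v).card = 1)

/-- real hafnian -/
noncomputable def haf {n : ℕ} (W : Fin n → Fin n → ℝ) : ℝ := ∑ M ∈ PMs n, ∏ q ∈ M, W q.1 q.2

theorem haf_cast {n : ℕ} (w : Fin n → Fin n → ℕ) :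
    haf (fun a b => (w a b : ℝ)) = (multNumPerfectMatchings w : ℝ) := by
  simp [haf, PMs, multNumPerfectMatchings]

def cut {n : ℕ} (x : Fin n → Fin n → ℝ) (S : Finset (Fin n)) : ℝ := ∑ a ∈ S, ∑ b ∈ Sᶜ, x a b

theorem cut_eq {n : ℕ} {x : Fin n → Fin n → ℝ} (hx : ∀ a b, x a b = x b a) (S : Finset (Fin n)) :
    ∑ q ∈ (ltPairs n).filter (fun q => ¬ (q.1 ∈ S ↔ q.2 ∈ S)), x q.1 q.2 = cut x S := by
  have h1 : cut x S = ∑ a, ∑ b, if a ∈ S ∧ b ∉ S then x a b else 0 := by
    unfold cut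
    rw [← sum_filter_add_sum_filter_not univ (· ∈ S)]
    have e1 : (univ.filter (· ∈ S)) = S := by ext; simp
    rw [e1, sum_eq_zero (s := univ.filter fun a => ¬ a ∈ S), add_zero]
    · refine sum_congr rfl fun a ha => ?_
      rw [← sum_filter]
      refine sum_congr ?_ fun _ _ => rfl
      ext b; simp [ha]
    · intro a ha
      simp only [mem_filter] at ha
      simp [ha.2]
  have h2 : ∑ a, ∑ b, (if a ∈ S ∧ b ∉ S then x a b else 0) =
      ∑ a, ∑ b, (if a < b ∧ a ∈ S ∧ b ∉ S then x a b else 0) +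
      ∑ a, ∑ b, (if b < a ∧ a ∈ S ∧ b ∉ S then x a b else 0) := by
    rw [← sum_add_distrib]
    refine sum_congr rfl fun a _ => ?_
    rw [← sum_add_distrib]
    refine sum_congr rfl fun b _ => ?_
    rcases lt_trichotomy a b with h | h | h
    · simp [h, h.not_gt]
    · subst h; simp
    · simp [h, h.not_gt]
  rw [h1, h2, sum_comm (f := fun a b => if b < a ∧ a ∈ S ∧ b ∉ S then x a b else 0),
    ← sum_add_distrib, ltPairs, filter_filter, sum_filter, Fintype.sum_prod_type]
  refine sum_congr rfl fun a _ => ?_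
  rw [← sum_add_distrib]
  refine sum_congr rfl fun b _ => ?_
  by_cases h : a < b <;> by_cases ha : a ∈ S <;> by_cases hb : b ∈ S <;> simp [h, ha, hb, hx a b]

theorem deg_eq {n : ℕ} {x : Fin n → Fin n → ℝ} (hx : ∀ a b, x a b = x b a) (v : Fin n) :
    ∑ q ∈ (ltPairs n).filter (fun q => q.1 = v ∨ q.2 = v), x q.1 q.2 = cut x {v} := by
  rw [← cut_eq hx]
  refine sum_congr ?_ fun _ _ => rfl
  ext q
  simp only [ltPairs, mem_filter, mem_univ, true_and, mem_singleton, and_congr_right_iff]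
  intro h
  have := h.ne
  constructor
  · rintro (h | h) <;> subst h <;> tauto
  · tauto

theorem sum_deg {n : ℕ} {x : Fin n → Fin n → ℝ} (hx : ∀ a b, x a b = x b a) :
    ∑ v, cut x {v} = 2 * ∑ q ∈ ltPairs n, x q.1 q.2 := by
  simp_rw [← deg_eq hx, sum_filter]
  rw [sum_comm, mul_sum]
  refine sum_congr rfl fun q hq => ?_
  have h : q.1 ≠ q.2 := (mem_filter.1 hq).2.ne
  rw [← sum_filter, sum_const]
  have : (univ.filter fun v => q.1 = v ∨ q.2 = v) = {q.1, q.2} := by
    ext v; simp [eq_comm]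
  rw [this, card_pair h]
  simp

theorem exists_law {v k : ℕ} (ends : Fin k → Fin v × Fin v) {x : Fin k → ℝ}
    (hx : x ∈ pmPolytope ends) : ∃ p, IsMatchingLaw ends p ∧ ∀ e, marginal p e = x e := by
  refine convexHull_min (t := {x | ∃ p, IsMatchingLaw ends p ∧ ∀ e, marginal p e = x e}) ?_ ?_ hx
  · rintro _ ⟨M, hM, rfl⟩
    refine ⟨fun M' => if M' = M then 1 else 0, ⟨fun M' => by positivity, by simp, fun M' h => ?_⟩,
      fun e => ?_⟩
    · by_cases h' : M' = M
      · exact h' ▸ hM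
      · simp [h'] at h
    · simp [marginal, pmIndicator]
  · rintro x ⟨p, hp, hpx⟩ y ⟨q, hq, hqy⟩ a b ha hb hab
    refine ⟨fun M => a * p M + b * q M, ⟨fun M => ?_, ?_, fun M h => ?_⟩, fun e => ?_⟩
    · have := hp.1 M
      have := hq.1 M
      positivity
    · rw [sum_add_distrib, ← mul_sum, ← mul_sum, hp.2.1, hq.2.1]
      linarith
    · by_contra hM
      have h1 : p M = 0 := by_contra fun h => hM (hp.2.2 M h)
      have h2 : q M = 0 := by_contra fun h => hM (hq.2.2 M h)
      simp [h1, h2] at h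
    · simp only [marginal, sum_add_distrib, ← mul_sum, Pi.add_apply, Pi.smul_apply, smul_eq_mul]
      rw [← hpx, ← hqy]
      rfl

theorem gibbs {ι : Type} [Fintype ι] (q W : ι → ℝ) (s : Finset ι) (Z : ℝ) (hq : ∀ i, 0 ≤ q i)
    (h1 : ∑ i, q i = 1) (hs : ∀ i, q i ≠ 0 → i ∈ s) (hW : ∀ i, 0 < W i) (hZ : ∑ i ∈ s, W i ≤ Z) :
    0 < Z ∧ ∑ i, q i * Real.log (W i) + ∑ i, Real.negMulLog (q i) ≤ Real.log Z := by
  classical
  have hne : s.Nonempty := by
    by_contra h
    rw [not_nonempty_iff_eq_empty] at h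
    have : ∑ i, q i = 0 := sum_eq_zero fun i _ => by_contra fun h' => by simpa [h] using hs i h'
    linarith
  have hZ0 : 0 < Z := lt_of_lt_of_le (sum_pos (fun i _ => hW i) hne) hZ
  refine ⟨hZ0, ?_⟩
  have key : ∀ i, q i * Real.log (W i) + Real.negMulLog (q i) ≤
      q i * Real.log Z + ((if i ∈ s then W i / Z else 0) - q i) := by
    intro i
    rcases (hq i).eq_or_lt with h | h
    · rw [← h]
      have := hW i
      simp only [zero_mul, Real.negMulLog_zero, add_zero, sub_zero, zero_add]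
      positivity
    · rw [if_pos (hs i h.ne')]
      have h2 := Real.log_le_sub_one_of_pos (div_pos (hW i) (mul_pos hZ0 h))
      rw [Real.log_div (hW i).ne' (mul_pos hZ0 h).ne', Real.log_mul hZ0.ne' h.ne'] at h2
      have h3 := mul_le_mul_of_nonneg_left h2 h.le
      have h4 : q i * (W i / (Z * q i) - 1) = W i / Z - q i := by field_simp
      rw [h4] at h3
      simp only [Real.negMulLog]
      linarith
  have h5 := sum_le_sum fun i (_ : i ∈ univ) => key i
  rw [sum_add_distrib, sum_add_distrib, sum_sub_distrib, ← sum_mul, h1, ← sum_filter] at h5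
  have h6 : (univ.filter (· ∈ s)) = s := by ext; simp
  rw [h6, ← sum_div] at h5
  have h7 : (∑ i ∈ s, W i) / Z ≤ 1 := (div_le_one hZ0).2 hZ
  linarith

/-- The entropy lower bound at a point of the Edmonds polytope of the complete graph. -/
theorem gib (hE : EdmStmt) (hS : EntStmt) {m : ℕ} (hm : 1 ≤ m) (W y : Fin (2 * m) → Fin (2 * m) → ℝ)
    (hW : ∀ a b, 0 < W a b) (hy : ∀ a b, y a b = y b a) (hy0 : ∀ a b, a ≠ b → 0 ≤ y a b)
    (hd : ∀ v, cut y {v} = 1) (hc : ∀ S : Finset (Fin (2 * m)), Odd S.card → 1 ≤ cut y S) :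
    0 < haf W ∧ ∑ q ∈ ltPairs (2 * m), (y q.1 q.2 * Real.log (W q.1 q.2) + Real.negMulLog (y q.1 q.2))
      - 2 * m ≤ Real.log (haf W) := by
  classical
  set P := ltPairs (2 * m) with hP
  let σ : Fin P.card ≃ P := P.equivFin.symm
  let ends : Fin P.card → Fin (2 * m) × Fin (2 * m) := fun e => (σ e).1
  have hlt : ∀ e, (ends e).1 < (ends e).2 := fun e => (mem_filter.1 (σ e).2).2
  have hinj : Function.Injective ends := fun e e' h => σ.injective (Subtype.ext h)
  have hsum : ∀ F : Fin (2 * m) × Fin (2 * m) → ℝ, ∑ e, F (ends e) = ∑ q ∈ P, F q := by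
    intro F
    rw [← sum_coe_sort P]
    exact Equiv.sum_comp σ (fun q : P => F q.1)
  have hfil : ∀ (F : Fin (2 * m) × Fin (2 * m) → ℝ) (r : Fin (2 * m) × Fin (2 * m) → Prop)
      [DecidablePred r], ∑ e ∈ univ.filter (fun e => r (ends e)), F (ends e) =
        ∑ q ∈ P.filter r, F q := by
    intro F r _
    rw [sum_filter, sum_filter]
    exact hsum (fun q => if r q then F q else 0)
  let x : Fin P.card → ℝ := fun e => y (ends e).1 (ends e).2
  have hx0 : ∀ e, 0 ≤ x e := fun e => hy0 _ _ (hlt e).ne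
  have hdeg : ∀ v, ∑ e ∈ univ.filter (fun e => (ends e).1 = v ∨ (ends e).2 = v), x e = 1 := by
    intro v
    rw [← hd v, ← deg_eq hy]
    exact hfil (fun q => y q.1 q.2) (fun q => q.1 = v ∨ q.2 = v)
  have hx : x ∈ pmPolytope ends := by
    refine hE m _ ends (fun e => (hlt e).ne) x hx0 hdeg fun S hS => ?_
    refine (hc S hS).trans_eq ?_
    rw [← cut_eq hy]
    exact (hfil (fun q => y q.1 q.2) (fun q => ¬ (q.1 ∈ S ↔ q.2 ∈ S))).symm
  obtain ⟨p, hp, hpx⟩ := exists_law ends hx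
  obtain ⟨q, hq, hqp, hent⟩ := hS m hm _ ends (fun e => (hlt e).ne) p hp
  simp only [hpx] at hqp hent
  have hx1 : ∀ e, x e ≤ 1 := by
    intro e
    rw [← hdeg (ends e).1]
    exact single_le_sum (f := x) (fun e _ => hx0 e) (by simp)
  have hxm : ∑ e, x e = m := by
    have h1 := sum_deg hy
    simp only [hd, sum_const, card_univ, Fintype.card_fin, nsmul_eq_mul, mul_one] at h1
    rw [hsum (fun q => y q.1 q.2)]
    push_cast at h1
    linarith
  have hB : ∑ e, Real.negMulLog (1 - x e) ≤ m := by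
    rw [← hxm]
    refine sum_le_sum fun e _ => ?_
    have := Real.negMulLog_le_one_sub_self (sub_nonneg.2 (hx1 e))
    linarith
  have hm' : (1 : ℝ) ≤ m := by exact_mod_cast hm
  have hc2 : (2 - 2 / (m : ℝ)) * ∑ e, Real.negMulLog (1 - x e) ≤ 2 * m := by
    have h1 : 2 / (m : ℝ) ≤ 2 := div_le_self (by norm_num) hm'
    have h2 : 0 ≤ 2 / (m : ℝ) := by positivity
    calc _ ≤ (2 - 2 / (m : ℝ)) * m := mul_le_mul_of_nonneg_left hB (by linarith)
      _ ≤ 2 * m := mul_le_mul_of_nonneg_right (by linarith) (by linarith)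
  have hZ : ∑ M ∈ univ.filter (fun M => IsPerfectMatching ends M),
      ∏ e ∈ M, W (ends e).1 (ends e).2 ≤ haf W := by
    have e1 : ∑ M ∈ univ.filter (fun M => IsPerfectMatching ends M),
        ∏ e ∈ M, W (ends e).1 (ends e).2 =
        ∑ M ∈ (univ.filter (fun M => IsPerfectMatching ends M)).image (fun M => M.image ends),
          ∏ q ∈ M, W q.1 q.2 := by
      rw [sum_image fun M _ M' _ h => image_injective hinj h]
      refine sum_congr rfl fun M _ => ?_
      rw [prod_image fun e _ e' _ h => hinj h]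
    rw [e1]
    refine sum_le_sum_of_subset_of_nonneg ?_ fun M _ _ => prod_nonneg fun q _ => (hW _ _).le
    intro M' hM'
    obtain ⟨M, hM, rfl⟩ := mem_image.1 hM'
    refine mem_filter.2 ⟨mem_powerset.2 fun q hq => ?_, fun v => ?_⟩
    · obtain ⟨e, -, rfl⟩ := mem_image.1 hq
      exact (σ e).2
    · rw [filter_image, card_image_of_injective _ hinj]
      exact (mem_filter.1 hM).2 v
  obtain ⟨h0, hg⟩ := gibbs q (fun M => ∏ e ∈ M, W (ends e).1 (ends e).2)
    (univ.filter fun M => IsPerfectMatching ends M) (haf W) hq.1 hq.2.1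
    (fun M h => mem_filter.2 ⟨mem_univ _, hq.2.2 M h⟩) (fun M => prod_pos fun e _ => hW _ _) hZ
  refine ⟨h0, ?_⟩
  have hlin : ∑ M, q M * Real.log (∏ e ∈ M, W (ends e).1 (ends e).2) =
      ∑ e, x e * Real.log (W (ends e).1 (ends e).2) := by
    have e1 : ∀ M : Finset (Fin P.card), q M * Real.log (∏ e ∈ M, W (ends e).1 (ends e).2) =
        ∑ e, if e ∈ M then q M * Real.log (W (ends e).1 (ends e).2) else 0 := by
      intro M
      rw [Real.log_prod fun e _ => (hW _ _).ne', mul_sum, ← sum_filter]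
      refine sum_congr ?_ fun _ _ => rfl
      ext; simp
    simp_rw [e1]
    rw [sum_comm]
    refine sum_congr rfl fun e _ => ?_
    rw [← hqp e, marginal, sum_mul, sum_filter]
  rw [← hsum (fun q => y q.1 q.2 * Real.log (W q.1 q.2) + Real.negMulLog (y q.1 q.2)),
    sum_add_distrib]
  rw [hlin] at hg
  unfold lawEntropy at hent
  linarith

end Crest.Agent.R304K
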