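import Mathlib
import Crest.Agent.R304K.Gib

/-! Row 304 (S0467), dual local search: definitions and the statements of the mathematical part. -/

set_option autoImplicit false

namespace Crest.Agent.R304K

open Finset Crest.Matchings

variable {n : ℕ}

/-- number of sets of `L` separating `a` from `b` -/
def cnt (L : List (Finset (Fin n))) (a b : Fin n) : ℕ := L.countP fun S => ¬ (a ∈ S ↔ b ∈ S)

/-- tilted weights -/
def uu (w : Fin n → Fin n → ℕ) (D : ℕ) (L : List (Finset (Fin n))) (a b : Fin n) : ℕ :=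
  w a b * (D + 1) ^ cnt L a b * D ^ (L.length - cnt L a b)

def ZZ (w : Fin n → Fin n → ℕ) (D : ℕ) (L : List (Finset (Fin n))) : ℕ :=
  ∑ q ∈ ltPairs n, uu w D L q.1 q.2

def cutN (u : Fin n → Fin n → ℕ) (S : Finset (Fin n)) : ℕ := ∑ a ∈ S, ∑ b ∈ Sᶜ, u a b

def Stuck (w : Fin n → Fin n → ℕ) (D : ℕ) (L : List (Finset (Fin n))) : Prop :=
  ∀ S ∈ L, ∀ T : Finset (Fin n), Odd T.card →
    D * cutN (uu w D L) S ≤ D * cutN (uu w D L) T + 3 * ZZ w D L

def den (m D : ℕ) : ℕ := (D + 1) ^ (D ^ 2) * D ^ (D ^ 2 * (m - 1)) * m ^ m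

def out (m D Z : ℕ) : ℕ :=
  if 3 ^ m * Z ^ m < den m D then 0 else max 1 (Z ^ m / (den m D * 2 ^ (12 * m)))

/-- One exchange decreases `ZZ` by the factor `1 - 1/D²`. -/
def StepStmt : Prop :=
  ∀ (n : ℕ) (w : Fin n → Fin n → ℕ) (D : ℕ) (L L' R : List (Finset (Fin n))) (S T : Finset (Fin n)),
    (∀ a b, w a b = w b a) → 1 ≤ D → L.Perm (S :: R) → L'.Perm (T :: R) →
    D * cutN (uu w D L) T + 3 * ZZ w D L < D * cutN (uu w D L) S →
    0 < ZZ w D L ∧ D ^ 2 * ZZ w D L' + ZZ w D L ≤ D ^ 2 * ZZ w D L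

/-- After `D³ + 1` rounds the search is stuck. -/
def IterStmt : Prop :=
  ∀ (n : ℕ) (w : Fin n → Fin n → ℕ) (D T : ℕ) (L : ℕ → List (Finset (Fin n))), 1 ≤ D →
    (∀ t, (L t).length = D ^ 2) →
    (∀ t, (Stuck w D (L t) ∧ L (t + 1) = L t) ∨
      (¬ Stuck w D (L t) ∧ 0 < ZZ w D (L t) ∧
        D ^ 2 * ZZ w D (L (t + 1)) + ZZ w D (L t) ≤ D ^ 2 * ZZ w D (L t))) →
    D ^ 3 + 1 ≤ T → Stuck w D (L T)

/-- The output at a stuck state is a `512 ^ n` approximation. -/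
def FinalStmt : Prop :=
  ∀ (m β D : ℕ) (w : Fin (2 * m) → Fin (2 * m) → ℕ) (L : List (Finset (Fin (2 * m)))), 1 ≤ m →
    (∀ a b, w a b = w b a) → (∀ a b, w a b < 2 ^ β) → 1000 * m ^ 3 * (β + m + 1) ≤ D →
    L.length = D ^ 2 → (∀ S ∈ L, Odd S.card) → Stuck w D L →
    multNumPerfectMatchings w ≤ 512 ^ (2 * m) * out m D (ZZ w D L) ∧
      out m D (ZZ w D L) ≤ multNumPerfectMatchings w

end Crest.Agent.R304K
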