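import Crest.Agent.R304D.ODD
import Crest.Agent.R304K.Defs
import Crest.Prelude.Def_Complexity

/-! Row 304 (S0467): the dual local search as a polynomial-time computation. -/

set_option autoImplicit false
set_option linter.unusedSimpArgs false

namespace Crest.Agent.R304K

open Finset Crest.Agent.PT Crest.Agent.QC Crest.Agent.R317 Crest.Agent.R302 Crest.Agent.R304D
open Crest.Matchings Crest.Enc

namespace Alg

abbrev Mat : Type := List (List ℤ)
abbrev Fam : Type := List (List Bool)

def cntL (L : Fam) (a b : ℕ) : ℕ :=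
  ∑ k ∈ range L.length, if (L.getD k []).getD a false = (L.getD k []).getD b false then 0 else 1

def uM (n D : ℕ) (W : Mat) (L : Fam) : Mat :=
  mkL n fun a => mkL n fun b =>
    gz W a b * ((D : ℤ) + 1) ^ cntL L a b * (D : ℤ) ^ (L.length - cntL L a b)

def cutL (n : ℕ) (U : Mat) (l : List Bool) : ℤ :=
  ∑ a ∈ range n, ∑ b ∈ range n, if l.getD a false = true ∧ l.getD b false = false then gz U a b else 0

def zL (n : ℕ) (U : Mat) : ℤ := ∑ a ∈ range n, ∑ b ∈ range n, if a < b then gz U a b else 0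

def bad (n D : ℕ) (U : Mat) (T : List Bool) (L : Fam) (i : ℕ) : Prop :=
  (D : ℤ) * cutL n U T + 3 * zL n U < D * cutL n U (L.getD i [])

open Classical in
noncomputable def repl (n D : ℕ) (U : Mat) (T : List Bool) (L : Fam) : Fam :=
  mkL L.length fun i => if bad n D U T L i ∧ All i (fun j => ¬ bad n D U T L j) then T else L.getD i []

noncomputable def rnd (n D β : ℕ) (W : Mat) (L : Fam) : Fam :=
  repl n D (uM n D W L) (oddmin (cutL n (uM n D W L)) n (2 * n + β + D * L.length)) L

def L0 (n D : ℕ) : Fam := mkL (D ^ 2) fun _ => mkL n fun j => decide (j = 0)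

noncomputable def fin (n D β : ℕ) (W : Mat) : Fam := (rnd n D β W)^[D ^ 3 + 1] (L0 n D)

def DD (n β : ℕ) : ℕ := 1000 * (n / 2) ^ 3 * (β + n / 2 + 1)

noncomputable def mainA (n β : ℕ) (W : Mat) : ℕ :=
  out (n / 2) (DD n β) (zL n (uM n (DD n β) W (fin n (DD n β) β W))).toNat

section PTs

variable {α : Type} [Enc α]

@[fun_prop] theorem pt_gz {W : α → Mat} {a b : α → ℕ} (hW : PT W) (ha : PT a) (hb : PT b) :
    PT (fun x => gz (W x) (a x) (b x)) := by unfold gz; fun_prop

@[fun_prop] theorem pt_cntL {L : α → Fam} {a b : α → ℕ} (hL : PT L) (ha : PT a) (hb : PT b) :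
    PT (fun x => cntL (L x) (a x) (b x)) := by
  unfold cntL
  exact PT.sumNat (f := fun x k => if ((L x).getD k []).getD (a x) false =
    ((L x).getD k []).getD (b x) false then 0 else 1) (by fun_prop)
    (PT.iteD (by fun_prop) (PT.const _) (PT.const _))

@[fun_prop] theorem pt_uM {n D : α → ℕ} {W : α → Mat} {L : α → Fam} (hn : PT n) (hD : PT D)
    (hW : PT W) (hL : PT L) : PT (fun x => uM (n x) (D x) (W x) (L x)) := by
  unfold uM; fun_prop

@[fun_prop] theorem pt_cutL {n : α → ℕ} {U : α → Mat} {l : α → List Bool} (hn : PT n) (hU : PT U)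
    (hl : PT l) : PT (fun x => cutL (n x) (U x) (l x)) := by
  unfold cutL; fun_prop

@[fun_prop] theorem pt_zL {n : α → ℕ} {U : α → Mat} (hn : PT n) (hU : PT U) :
    PT (fun x => zL (n x) (U x)) := by
  unfold zL; fun_prop

@[fun_prop] theorem dt_bad {n D i : α → ℕ} {U : α → Mat} {T : α → List Bool} {L : α → Fam}
    (hn : PT n) (hD : PT D) (hU : PT U) (hT : PT T) (hL : PT L) (hi : PT i) :
    DT (fun x => bad (n x) (D x) (U x) (T x) (L x) (i x)) := by
  unfold bad; fun_prop

@[fun_prop] theorem pt_repl {n D : α → ℕ} {U : α → Mat} {T : α → List Bool} {L : α → Fam}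
    (hn : PT n) (hD : PT D) (hU : PT U) (hT : PT T) (hL : PT L) :
    PT (fun x => repl (n x) (D x) (U x) (T x) (L x)) := by
  classical
  unfold repl; fun_prop

theorem pt_rnd {n D β : α → ℕ} {W : α → Mat} {L : α → Fam}
    (hn : PT n) (hD : PT D) (hβ : PT β) (hW : PT W) (hL : PT L) :
    PT (fun x => rnd (n x) (D x) (β x) (W x) (L x)) := by
  unfold rnd
  refine pt_repl hn hD (by fun_prop) ?_ hL
  exact pt_oddmin (g := fun x => cutL (n x) (uM (n x) (D x) (W x) (L x))) (by fun_prop) hn
    (by fun_prop)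

theorem shape (n D β : ℕ) (W : Mat) (i : ℕ) :
    ((rnd n D β W)^[i] (L0 n D)).length = D ^ 2 ∧ ∀ l ∈ (rnd n D β W)^[i] (L0 n D), l.length = n := by
  classical
  induction i with
  | zero =>
    refine ⟨by simp [L0], fun l hl => ?_⟩
    obtain ⟨i, -, rfl⟩ := Sfm.mem_mkL.1 hl
    simp
  | succ i ih =>
    rw [Function.iterate_succ_apply']
    generalize (rnd n D β W)^[i] (L0 n D) = L at ih
    refine ⟨by simp [rnd, repl, ih.1], fun l hl => ?_⟩
    obtain ⟨j, hj, rfl⟩ := Sfm.mem_mkL.1 hl
    split_ifs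
    · simp [oddmin, ODD.dec]
    · rw [List.getD_eq_getElem _ _ hj]
      exact ih.2 _ (List.getElem_mem hj)

theorem natRec_iter {β : Type} (f : β → β) (z : β) (i : ℕ) :
    (Nat.rec z (fun _ b => f b) i : β) = f^[i] z := by
  induction i with
  | zero => rfl
  | succ i ih => rw [Function.iterate_succ_apply', ← ih]

theorem pt_fin {n D β : α → ℕ} {W : α → Mat} (hn : PT n) (hD : PT D) (hβ : PT β) (hW : PT W) :
    PT (fun x => fin (n x) (D x) (β x) (W x)) := by
  have h := PT.natRec (g := fun x => D x ^ 3 + 1) (z := fun x => L0 (n x) (D x))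
    (s := fun x _ L => rnd (n x) (D x) (β x) (W x) L) (by fun_prop) (by unfold L0; fun_prop)
    (pt_rnd (by fun_prop) (by fun_prop) (by fun_prop) (by fun_prop) (by fun_prop))
    (B := fun x => D x ^ 2 * (2 * (n x * (2 * 1 + 1)) + 1))
    ((hD.pbNat.pow 2).mul (((PB.const 2).mul (hn.pbNat.mul (PB.const _))).add (PB.const 1)))
    (fun x i _ => by
      rw [natRec_iter]
      obtain ⟨h1, h2⟩ := shape (n x) (D x) (β x) (W x) i
      rw [← h1]
      refine sz_list_le _ _ (fun l hl => ?_)
      rw [← h2 l hl]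
      exact sz_list_le _ _ (fun b _ => by simp))
  exact h.congr (fun x => natRec_iter (rnd (n x) (D x) (β x) (W x)) (L0 (n x) (D x)) (D x ^ 3 + 1))

theorem bt_mainA {n β : α → ℕ} {W : α → Mat} (hn : PT n) (hβ : PT β) (hW : PT W) :
    BT (fun x => mainA (n x) (β x) (W x)) := by
  have hD : PT (fun x => DD (n x) (β x)) := by unfold DD; fun_prop
  have h1 := pt_fin hn hD hβ hW
  have h2 : PT (fun x => zL (n x) (uM (n x) (DD (n x) (β x)) (W x)
    (fin (n x) (DD (n x) (β x)) (β x) (W x)))) := pt_zL hn (pt_uM hn hD hW h1)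
  have h3 : BT (fun p : ℕ × ℕ × ℤ => out p.1 p.2.1 p.2.2.toNat) := by
    unfold out den; fun_prop
  exact h3.comp (f := fun x => (n x / 2, DD (n x) (β x), zL (n x) (uM (n x) (DD (n x) (β x)) (W x)
    (fin (n x) (DD (n x) (β x)) (β x) (W x))))) (PT.pair (by fun_prop) (PT.pair hD h2))

end PTs

section Spec

variable {n : ℕ}

/-- the family of sets -/
def fam (n : ℕ) (L : Fam) : List (Finset (Fin n)) := L.map (setOfBits n)

theorem mem_set (l : List Bool) (a : Fin n) : a ∈ setOfBits n l ↔ l.getD a false = true := by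
  simp [setOfBits]

theorem cntL_eq (L : Fam) (a b : Fin n) : cntL L a b = cnt (fam n L) a b := by
  unfold cntL cnt fam
  induction L with
  | nil => simp
  | cons l L ih =>
    rw [List.length_cons, sum_range_succ', List.map_cons, List.countP_cons, ← ih]
    simp only [List.getD_cons_succ, List.getD_cons_zero, mem_set]
    congr 1
    cases l.getD a false <;> cases l.getD b false <;> simp

theorem uM_eq (D : ℕ) (W : Mat) (L : Fam) (w : Fin n → Fin n → ℕ)
    (hW : ∀ a b : Fin n, gz W a b = w a b) (a b : Fin n) :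
    gz (uM n D W L) a b = uu w D (fam n L) a b := by
  unfold uM uu
  rw [gz_mkL _ a.2 b.2, hW, cntL_eq]
  simp [fam]

theorem cutL_eq (U : Mat) (u : Fin n → Fin n → ℕ) (hU : ∀ a b : Fin n, gz U a b = u a b)
    (l : List Bool) : cutL n U l = cutN u (setOfBits n l) := by
  unfold cutL cutN
  rw [← Fin.sum_univ_eq_sum_range (fun a => ∑ b ∈ range n,
    if l.getD a false = true ∧ l.getD b false = false then gz U a b else 0)]
  push_cast
  rw [← sum_filter_add_sum_filter_not univ (· ∈ setOfBits n l), filter_mem_eq_inter, univ_inter,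
    sum_eq_zero (s := filter _ _), add_zero]
  · refine sum_congr rfl fun a ha => ?_
    rw [← Fin.sum_univ_eq_sum_range (fun b =>
      if l.getD a false = true ∧ l.getD b false = false then gz U a b else 0), ← sum_filter]
    refine sum_congr ?_ fun b _ => hU a b
    ext b
    simp only [mem_filter, mem_univ, true_and, mem_compl, mem_set, (mem_set l a).1 ha]
    simp
  · intro a ha
    refine sum_eq_zero fun b _ => if_neg fun h => ?_
    exact (mem_filter.1 ha).2 ((mem_set l a).2 h.1)

theorem zL_eq (U : Mat) (u : Fin n → Fin n → ℕ) (hU : ∀ a b : Fin n, gz U a b = u a b) :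
    zL n U = ((∑ q ∈ ltPairs n, u q.1 q.2 : ℕ) : ℤ) := by
  unfold zL ltPairs
  rw [← Fin.sum_univ_eq_sum_range (fun a => ∑ b ∈ range n, if a < b then gz U a b else 0)]
  push_cast
  rw [sum_filter, ← univ_product_univ, sum_product]
  refine sum_congr rfl fun a _ => ?_
  rw [← Fin.sum_univ_eq_sum_range (fun b => if (a : ℕ) < b then gz U a b else 0)]
  refine sum_congr rfl fun b _ => ?_
  simp only [hU, Fin.lt_def]

theorem cutN_eq (u : Fin n → Fin n → ℕ) (S : Finset (Fin n)) :
    cutN u S = ∑ a, ∑ b, if a ∈ S ∧ b ∉ S then u a b else 0 := by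
  unfold cutN
  rw [← sum_filter_add_sum_filter_not univ (· ∈ S), filter_mem_eq_inter, univ_inter,
    sum_eq_zero (s := filter _ _), add_zero]
  · refine sum_congr rfl fun a ha => ?_
    rw [← sum_filter]
    refine sum_congr ?_ fun _ _ => rfl
    ext b; simp [ha]
  · intro a ha
    exact sum_eq_zero fun b _ => if_neg fun h => (mem_filter.1 ha).2 h.1

theorem cutN_sub (u : Fin n → Fin n → ℕ) (A B : Finset (Fin n)) :
    cutN u (A ∪ B) + cutN u (A ∩ B) ≤ cutN u A + cutN u B := by
  simp only [cutN_eq, ← sum_add_distrib]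
  refine sum_le_sum fun a _ => sum_le_sum fun b _ => ?_
  by_cases h1 : a ∈ A <;> by_cases h2 : a ∈ B <;> by_cases h3 : b ∈ A <;> by_cases h4 : b ∈ B <;>
    simp [h1, h2, h3, h4]

theorem cutN_le (w : Fin n → Fin n → ℕ) (D β : ℕ) (L : List (Finset (Fin n)))
    (hw : ∀ a b, w a b < 2 ^ β) (S : Finset (Fin n)) :
    cutN (uu w D L) S ≤ 2 ^ (2 * n + β + D * L.length) := by
  have h1 : ∀ a b, uu w D L a b ≤ 2 ^ β * 2 ^ (D * L.length) := by
    intro a b
    have hc : cnt L a b ≤ L.length := List.countP_le_length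
    unfold uu
    rw [mul_assoc]
    refine Nat.mul_le_mul (hw a b).le ?_
    calc (D + 1) ^ cnt L a b * D ^ (L.length - cnt L a b)
        ≤ (D + 1) ^ cnt L a b * (D + 1) ^ (L.length - cnt L a b) := by gcongr; omega
      _ = (D + 1) ^ L.length := by rw [← pow_add]; congr 1; omega
      _ ≤ (2 ^ D) ^ L.length := Nat.pow_le_pow_left (Nat.lt_two_pow_self) _
      _ = _ := by rw [← pow_mul]
  rw [cutN_eq]
  calc _ ≤ ∑ _a : Fin n, ∑ _b : Fin n, 2 ^ β * 2 ^ (D * L.length) := by
        refine sum_le_sum fun a _ => sum_le_sum fun b _ => ?_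
        split_ifs
        · exact h1 a b
        · exact Nat.zero_le _
    _ = n * n * (2 ^ β * 2 ^ (D * L.length)) := by simp [mul_assoc]
    _ ≤ 2 ^ n * 2 ^ n * (2 ^ β * 2 ^ (D * L.length)) := by
        gcongr <;> exact Nat.lt_two_pow_self.le
    _ = _ := by ring

theorem rnd_spec (hS : StepStmt) (D β : ℕ) (W : Mat) (L : Fam) (w : Fin n → Fin n → ℕ)
    (hn : Even n) (hn0 : 0 < n) (hD : 1 ≤ D) (hW : ∀ a b : Fin n, gz W a b = w a b)
    (hsym : ∀ a b, w a b = w b a) (hw : ∀ a b, w a b < 2 ^ β)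
    (hL : ∀ S ∈ fam n L, Odd S.card) :
    (∀ S ∈ fam n (rnd n D β W L), Odd S.card) ∧
      ((Stuck w D (fam n L) ∧ fam n (rnd n D β W L) = fam n L) ∨
        (¬ Stuck w D (fam n L) ∧ 0 < ZZ w D (fam n L) ∧
          D ^ 2 * ZZ w D (fam n (rnd n D β W L)) + ZZ w D (fam n L) ≤ D ^ 2 * ZZ w D (fam n L))) := by
  classical
  have hU := uM_eq D W L w hW
  have hc := cutL_eq _ _ hU
  have hlen : (fam n L).length = L.length := by simp [fam]
  obtain ⟨T, e, hT, hmin⟩ := oddmin_spec (m := 2 * n + β + D * L.length) (g := cutL n (uM n D W L))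
    (fun S => (cutN (uu w D (fam n L)) S : ℤ)) hn hn0 (fun S => by rw [hc, setOfBits_bitsOf])
    (fun A B => by exact_mod_cast cutN_sub _ A B) (fun S => by
      rw [abs_of_nonneg (Int.natCast_nonneg _), ← hlen]
      exact_mod_cast cutN_le w D β _ hw S)
  have hb : ∀ i, bad n D (uM n D W L) (bitsOf T) L i ↔
      D * cutN (uu w D (fam n L)) T + 3 * ZZ w D (fam n L) <
        D * cutN (uu w D (fam n L)) (setOfBits n (L.getD i [])) := by
    intro i
    unfold bad
    rw [hc, hc, zL_eq _ _ hU, setOfBits_bitsOf]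
    unfold ZZ
    norm_cast
  unfold rnd
  rw [e]
  by_cases hex : ∃ i, i < L.length ∧ bad n D (uM n D W L) (bitsOf T) L i
  · let k := Nat.find hex
    obtain ⟨hk, hk'⟩ : k < L.length ∧ bad n D (uM n D W L) (bitsOf T) L k := Nat.find_spec hex
    have e2 : repl n D (uM n D W L) (bitsOf T) L = L.set k (bitsOf T) := by
      apply List.ext_getElem (by simp [repl])
      intro i h1 h2
      have hi : i < L.length := by simpa using h2
      simp only [repl, mkL, List.getElem_map, List.getElem_range, List.getElem_set]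
      by_cases hik : k = i
      · rw [if_pos hik, if_pos]
        subst hik
        exact ⟨hk', fun j hj hbj => Nat.find_min hex hj ⟨hj.trans hk, hbj⟩⟩
      · rw [if_neg hik, if_neg, List.getD_eq_getElem _ _ hi]
        rintro ⟨b1, b2⟩
        have : k ≤ i := Nat.find_min' hex ⟨hi, b1⟩
        exact b2 k (by omega) hk'
    have e3 : fam n (L.set k (bitsOf T)) = (fam n L).set k T := by
      simp only [fam, List.map_set, setOfBits_bitsOf]
    rw [e2, e3]
    have hk2 : k < (fam n L).length := by rwa [hlen]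
    refine ⟨fun S hS => ?_, Or.inr ?_⟩
    · rcases List.mem_or_eq_of_mem_set hS with h | h
      · exact hL S h
      · exact h ▸ hT
    · have h5 : D * cutN (uu w D (fam n L)) T + 3 * ZZ w D (fam n L) <
          D * cutN (uu w D (fam n L)) (fam n L)[k] := by
        have := (hb k).1 hk'
        rw [List.getD_eq_getElem _ _ hk] at this
        simpa only [fam, List.getElem_map] using this
      exact ⟨fun hst => absurd (hst _ (List.getElem_mem hk2) T hT) (not_le.2 h5),
        hS n w D _ _ ((fam n L).eraseIdx k) (fam n L)[k] T hsym hD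
          (List.getElem_cons_eraseIdx_perm hk2).symm (List.set_perm_cons_eraseIdx hk2 T) h5⟩
  · have e2 : repl n D (uM n D W L) (bitsOf T) L = L := by
      apply List.ext_getElem (by simp [repl])
      intro i h1 h2
      simp only [repl, mkL, List.getElem_map, List.getElem_range]
      rw [if_neg (fun h => hex ⟨i, h2, h.1⟩), List.getD_eq_getElem _ _ h2]
    rw [e2]
    refine ⟨hL, Or.inl ⟨fun S hS T' hT' => ?_, rfl⟩⟩
    obtain ⟨l, hl, rfl⟩ := List.mem_map.1 hS
    obtain ⟨i, hi, rfl⟩ := List.getElem_of_mem hl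
    have h1 : ¬ _ := fun h => hex ⟨i, hi, (hb i).2 h⟩
    rw [List.getD_eq_getElem _ _ hi] at h1
    have h2 : cutN (uu w D (fam n L)) T ≤ cutN (uu w D (fam n L)) T' := by
      exact_mod_cast hmin T' hT'
    have := Nat.mul_le_mul_left D h2
    omega

end Spec

theorem mainA_spec (hS : StepStmt) (hI : IterStmt) (hF : FinalStmt) (m β : ℕ) (W : Mat)
    (w : Fin (2 * m) → Fin (2 * m) → ℕ) (hm : 1 ≤ m) (hW : ∀ a b : Fin (2 * m), gz W a b = w a b)
    (hsym : ∀ a b, w a b = w b a) (hw : ∀ a b, w a b < 2 ^ β) :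
    multNumPerfectMatchings w ≤ 512 ^ (2 * m) * mainA (2 * m) β W ∧
      mainA (2 * m) β W ≤ multNumPerfectMatchings w := by
  have e : 2 * m / 2 = m := by omega
  set D := DD (2 * m) β with hDdef
  have hD : D = 1000 * m ^ 3 * (β + m + 1) := by rw [hDdef, DD, e]
  have D1 : 1 ≤ D := by rw [hD]; exact Nat.succ_le_of_lt (by positivity)
  have hev : Even (2 * m) := even_two_mul m
  have hodd : ∀ t, ∀ S ∈ fam (2 * m) ((rnd (2 * m) D β W)^[t] (L0 (2 * m) D)), Odd S.card := by
    intro t
    induction t with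
    | zero =>
      intro S hS
      obtain ⟨l, hl, rfl⟩ := List.mem_map.1 hS
      obtain ⟨i, -, rfl⟩ := Sfm.mem_mkL.1 hl
      rw [mkL_eq_bitsOf _ {(⟨0, by omega⟩ : Fin (2 * m))} (fun j => by simp [Fin.ext_iff]),
        setOfBits_bitsOf]
      simp
    | succ t ih =>
      rw [Function.iterate_succ_apply']
      exact (rnd_spec hS D β W _ w hev (by omega) D1 hW hsym hw ih).1
  have hlen : ∀ t, (fam (2 * m) ((rnd (2 * m) D β W)^[t] (L0 (2 * m) D))).length = D ^ 2 :=
    fun t => by rw [fam, List.length_map, (shape _ _ _ _ t).1]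
  have hst := hI (2 * m) w D (D ^ 3 + 1)
    (fun t => fam (2 * m) ((rnd (2 * m) D β W)^[t] (L0 (2 * m) D))) D1 hlen (fun t => by
      simp only [Function.iterate_succ_apply']
      exact (rnd_spec hS D β W _ w hev (by omega) D1 hW hsym hw (hodd t)).2) le_rfl
  have := hF m β D w _ hm hsym hw hD.ge (hlen _) (hodd _) hst
  unfold mainA
  rw [← hDdef, e, zL_eq _ _ (uM_eq D W _ w hW), Int.toNat_natCast]
  exact this

/-! Parsing. -/

def skip3 (x : Raw) : Raw := skip (skip (skip x))

def recd (x : Raw) (t : ℕ) : Raw := skip3^[t] (skip (skip x))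

def wP (x : Raw) (a b : ℕ) : ℕ :=
  ∑ t ∈ range (un (sz x) (rdNat (skip x))),
    if (rdNat (recd x t) = a ∧ rdNat (skip (recd x t)) = b) ∨
      (rdNat (recd x t) = b ∧ rdNat (skip (recd x t)) = a) then rdNat (skip (skip (recd x t))) else 0

def nP (x : Raw) : ℕ := un (sz x) (rdNat x)

def WP (x : Raw) : Mat := mkL (nP x) fun a => mkL (nP x) fun b => bz (wP x a b)

def βP (x : Raw) : ℕ := (∑ a ∈ range (nP x), ∑ b ∈ range (nP x), wP x a b).size

noncomputable def ans (x : Raw) : ℕ :=
  if rdNat x = 0 then 1 else if sz x < rdNat x ∨ rdNat x % 2 = 1 then 0 else mainA (nP x) (βP x) (WP x)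

theorem pt_recd {α : Type} [Enc α] {x : α → Raw} {t : α → ℕ} (hx : PT x) (ht : PT t) :
    PT (fun a => recd (x a) (t a)) :=
  pt_iterShrink (s := skip3) (by unfold skip3; fun_prop)
    (fun _ => (length_skip _).trans ((length_skip _).trans (length_skip _))) ht (by fun_prop)

theorem bt_wP {α : Type} [Enc α] {x : α → Raw} {a b : α → ℕ} (hx : PT x) (ha : PT a) (hb : PT b) :
    BT (fun y => wP (x y) (a y) (b y)) := by
  unfold wP
  have h1 : PT (fun p : α × ℕ => recd (x p.1) p.2) := pt_recd (by fun_prop) (by fun_prop)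
  have h2 : BT (fun p : ℕ × ℕ × Raw => if (rdNat p.2.2 = p.1 ∧ rdNat (skip p.2.2) = p.2.1) ∨
      (rdNat p.2.2 = p.2.1 ∧ rdNat (skip p.2.2) = p.1) then rdNat (skip (skip p.2.2)) else 0) := by
    fun_prop
  exact BT.sum (by have := hx.len; fun_prop) (h2.comp (f := fun p : α × ℕ =>
    (a p.1, b p.1, recd (x p.1) p.2)) (PT.pair (by fun_prop) (PT.pair (by fun_prop) h1)))

theorem bt_ans : BT ans := by
  have h0 : PT (fun x : Raw => sz x) := PT.id'.len
  have hn : PT nP := by unfold nP; fun_prop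
  have hw : BT (fun q : (Raw × ℕ) × ℕ => wP q.1.1 q.1.2 q.2) :=
    bt_wP (by fun_prop) (by fun_prop) (by fun_prop)
  have hW : PT WP := pt_mkL hn (pt_mkL (n := fun p : Raw × ℕ => nP p.1)
    (f := fun p b => bz (wP p.1 p.2 b)) (hn.comp PT.id'.fst) (pt_bz hw))
  have hβ : PT βP := BT.size (BT.sum hn (BT.sum (g := fun p : Raw × ℕ => nP p.1)
    (f := fun p b => wP p.1 p.2 b) (hn.comp PT.id'.fst) hw))
  unfold ans
  exact BT.ite (by fun_prop) (BT.const _) (BT.ite (by fun_prop) (BT.const _) (bt_mainA hn hβ hW))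

theorem card_pm {n : ℕ} (M : Finset (Fin n × Fin n)) (hM : M ⊆ ltPairs n)
    (h : ∀ v : Fin n, (M.filter fun q => q.1 = v ∨ q.2 = v).card = 1) : n = 2 * M.card := by
  have h1 : ∑ v : Fin n, (M.filter fun q => q.1 = v ∨ q.2 = v).card = n := by simp [h]
  simp only [card_filter] at h1
  rw [sum_comm] at h1
  refine h1.symm.trans ?_
  rw [card_eq_sum_ones, mul_sum]
  refine sum_congr rfl fun q hq => ?_
  have hlt : q.1 < q.2 := (mem_filter.1 (hM hq)).2
  rw [← card_filter]
  have : (univ.filter fun v : Fin n => q.1 = v ∨ q.2 = v) = {q.1, q.2} := by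
    ext v; simp [eq_comm]
  rw [this, card_pair hlt.ne, mul_one]

theorem posPairs_nodup (n : ℕ) (w : Fin n → Fin n → ℕ) : (posPairs n w).Nodup :=
  ((List.nodup_finRange n).product (List.nodup_finRange n)).filter _

theorem mem_posPairs (n : ℕ) (w : Fin n → Fin n → ℕ) (q : Fin n × Fin n) :
    q ∈ posPairs n w ↔ q.1 < q.2 ∧ 0 < w q.1 q.2 := by
  obtain ⟨a, b⟩ := q
  simp [posPairs]

theorem len_code (n : ℕ) (w : Fin n → Fin n → ℕ) :
    2 * (posPairs n w).length ≤ (pairMultCode n w).length := by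
  unfold pairMultCode
  generalize posPairs n w = l
  have : 2 * l.length ≤ (l.map fun q => natCode q.1 ++ natCode q.2 ++ natCode (w q.1 q.2)).flatten.length := by
    induction l with
    | nil => simp
    | cons q l ih =>
      simp only [List.map_cons, List.flatten_cons, List.length_append, List.length_cons,
        length_natCode] at ih ⊢
      omega
  simp only [List.length_append]
  omega

theorem zero_of {n : ℕ} (w : Fin n → Fin n → ℕ)
    (h : (pairMultCode n w).length < n ∨ n % 2 = 1) : multNumPerfectMatchings w = 0 := by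
  unfold multNumPerfectMatchings
  refine sum_eq_zero fun M hM => ?_
  obtain ⟨h1, h2⟩ := mem_filter.1 hM
  have h1 := mem_powerset.1 h1
  have h3 := card_pm M h1 h2
  by_contra hne
  have h4 : M ⊆ (posPairs n w).toFinset := by
    intro q hq
    rw [List.mem_toFinset, mem_posPairs]
    exact ⟨(mem_filter.1 (h1 hq)).2, Nat.pos_of_ne_zero (prod_ne_zero_iff.1 hne q hq)⟩
  have h5 := (card_le_card h4).trans (List.toFinset_card_le _)
  have h6 := len_code n w
  omega

theorem wP_code {n : ℕ} (w : Fin n → Fin n → ℕ) (hsym : ∀ a b, w a b = w b a) (h0 : ∀ a, w a a = 0)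
    (a b : Fin n) : wP ⟨pairMultCode n w⟩ a b = w a b := by
  let code : Fin n × Fin n → List Bool := fun q => natCode q.1 ++ natCode q.2 ++ natCode (w q.1 q.2)
  have hx : (pairMultCode n w) = natCode n ++ (natCode (posPairs n w).length ++
      (((posPairs n w).map code).flatten ++ [])) := by simp [pairMultCode, code]
  have hc : un (sz (⟨pairMultCode n w⟩ : Raw)) (rdNat (skip ⟨pairMultCode n w⟩)) =
      (posPairs n w).length := by
    have := len_code n w
    have e : sz (⟨pairMultCode n w⟩ : Raw) = (pairMultCode n w).length := rfl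
    rw [e]
    conv_lhs => rw [un, hx, skip_code, rdNat_code, ← hx]
    omega
  have hr : ∀ (t : ℕ) (ht : t < (posPairs n w).length), ∃ y, recd ⟨pairMultCode n w⟩ t =
      ⟨natCode (posPairs n w)[t].1 ++ (natCode (posPairs n w)[t].2 ++
        (natCode (w (posPairs n w)[t].1 (posPairs n w)[t].2) ++ y))⟩ := by
    intro t ht
    refine ⟨(((posPairs n w).drop (t + 1)).map code).flatten, ?_⟩
    rw [recd, hx, skip_code, skip_code, iter_skip skip3 code (fun q y => by
      simp only [skip3, code, List.append_assoc, skip_code]) _ _ t ht.le,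
      List.drop_eq_getElem_cons ht]
    simp only [code, List.map_cons, List.flatten_cons, List.append_assoc, List.append_nil]
  let F : Fin n × Fin n → ℕ := fun q =>
    if (q.1 = a ∧ q.2 = b) ∨ (q.1 = b ∧ q.2 = a) then w q.1 q.2 else 0
  have h1 : wP ⟨pairMultCode n w⟩ a b = ((posPairs n w).map F).sum := by
    unfold wP
    rw [hc, ← Fin.sum_univ_eq_sum_range (fun t => if (rdNat (recd ⟨pairMultCode n w⟩ t) = a ∧
      rdNat (skip (recd ⟨pairMultCode n w⟩ t)) = b) ∨ (rdNat (recd ⟨pairMultCode n w⟩ t) = b ∧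
      rdNat (skip (recd ⟨pairMultCode n w⟩ t)) = a) then
      rdNat (skip (skip (recd ⟨pairMultCode n w⟩ t))) else 0), ← Fin.sum_univ_fun_getElem]
    refine sum_congr rfl fun t _ => ?_
    obtain ⟨y, hy⟩ := hr t t.2
    rw [hy]
    simp only [rdNat_code, skip_code, F, Fin.val_inj]
  rw [h1, ← List.sum_toFinset F (posPairs_nodup n w)]
  rcases lt_trichotomy a b with hab | hab | hab
  · rw [sum_eq_single (a, b)]
    · simp [F]
    · intro q hq hne
      rw [List.mem_toFinset, mem_posPairs] at hq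
      refine if_neg ?_
      rintro (⟨e1, e2⟩ | ⟨e1, e2⟩)
      · exact hne (Prod.ext e1 e2)
      · have := hq.1; rw [e1, e2] at this; exact lt_asymm hab this
    · intro hq
      rw [List.mem_toFinset, mem_posPairs] at hq
      have : w a b = 0 := by by_contra h; exact hq ⟨hab, Nat.pos_of_ne_zero h⟩
      simp [F, this]
  · subst hab
    rw [h0]
    refine sum_eq_zero fun q hq => if_neg ?_
    rw [List.mem_toFinset, mem_posPairs] at hq
    rintro (⟨e1, e2⟩ | ⟨e1, e2⟩) <;> exact hq.1.ne (e1.trans e2.symm)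
  · rw [sum_eq_single (b, a)]
    · simp [F, hsym a b]
    · intro q hq hne
      rw [List.mem_toFinset, mem_posPairs] at hq
      refine if_neg ?_
      rintro (⟨e1, e2⟩ | ⟨e1, e2⟩)
      · have := hq.1; rw [e1, e2] at this; exact lt_asymm hab this
      · exact hne (Prod.ext e1 e2)
    · intro hq
      rw [List.mem_toFinset, mem_posPairs] at hq
      have : w b a = 0 := by by_contra h; exact hq ⟨hab, Nat.pos_of_ne_zero h⟩
      simp [F, this, hsym a b]

end Alg

open Alg in
/-- The counting function on raw strings. -/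
theorem ans_spec (hS : StepStmt) (hI : IterStmt) (hF : FinalStmt) (n : ℕ) (w : Fin n → Fin n → ℕ)
    (hsym : ∀ i j, w i j = w j i) (h0 : ∀ i, w i i = 0) :
    multNumPerfectMatchings w ≤ 512 ^ n * ans ⟨pairMultCode n w⟩ ∧
      ans ⟨pairMultCode n w⟩ ≤ multNumPerfectMatchings w := by
  have hn : rdNat ⟨pairMultCode n w⟩ = n := by
    rw [pairMultCode, List.append_assoc, rdNat_code]
  have e : sz (⟨pairMultCode n w⟩ : Raw) = (pairMultCode n w).length := rfl
  unfold ans
  rw [hn, e]
  split_ifs with h1 h2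
  · subst h1
    have : multNumPerfectMatchings w = 1 := by
      have : ltPairs 0 = ∅ := by ext q; exact q.1.elim0
      simp [multNumPerfectMatchings, this]
    simp [this]
  · rw [zero_of w h2]; simp
  · have hnP : nP ⟨pairMultCode n w⟩ = n := by
      rw [nP, hn, e, un]; omega
    have hw := wP_code w hsym h0
    obtain ⟨m, rfl⟩ : ∃ m, n = 2 * m := ⟨n / 2, by omega⟩
    rw [hnP]
    refine mainA_spec hS hI hF m _ _ w (by omega) (fun a b => ?_) hsym (fun a b => ?_)
    · rw [WP, hnP, gz_mkL _ a.2 b.2, hw]; rfl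
    · refine lt_of_le_of_lt ?_ (Nat.lt_size_self _)
      rw [hnP, ← hw]
      exact (single_le_sum (f := fun b => wP ⟨pairMultCode (2 * m) w⟩ a b) (fun _ _ => Nat.zero_le _)
        (mem_range.2 b.2)).trans (single_le_sum
          (f := fun a => ∑ b ∈ range (2 * m), wP ⟨pairMultCode (2 * m) w⟩ a b)
          (fun _ _ => Nat.zero_le _) (mem_range.2 a.2))

open Alg in
theorem alg (hS : StepStmt) (hI : IterStmt) (hF : FinalStmt) :
    ∃ f : List Bool → List Bool, Crest.Complexity.PolyTime f ∧
      ∀ (n : ℕ) (w : Fin n → Fin n → ℕ), (∀ i j, w i j = w j i) → (∀ i, w i i = 0) →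
        ∃ A : ℕ, f (pairMultCode n w) = natCode A ∧
          multNumPerfectMatchings w ≤ 512 ^ n * A ∧ A ≤ multNumPerfectMatchings w :=
  ⟨_, PT.polyTime (PT.binCode (BT.mk bt_ans)), fun n w h1 h2 =>
    ⟨_, rfl, ans_spec hS hI hF n w h1 h2⟩⟩

end Crest.Agent.R304K
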