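import Crest.Agent.R304K.Gib
import Crest.Agent.R304P.Dim

/-! Row 304: Edmonds' theorem in the form used by the entropy/counting part. -/

set_option autoImplicit false

namespace Crest.Agent.R304K

open Finset Crest.Matchings

theorem edm : EdmStmt := by
  intro m k ends hends x h0 h1 h2
  have hc : ∀ S : Finset (Fin (2 * m)), R304P.cut ends S x =
      ∑ e ∈ univ.filter (fun e => ¬ ((ends e).1 ∈ S ↔ (ends e).2 ∈ S)), x e := by
    intro S
    rw [sum_filter]
    show (∑ e, if ((ends e).1 ∈ S ↔ (ends e).2 ∈ S) then 0 else x e) = _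
    refine sum_congr rfl fun e _ => ?_
    by_cases h : ((ends e).1 ∈ S ↔ (ends e).2 ∈ S) <;> simp [h]
  refine (R304P.mem_pmPolytope_iff hends (even_two_mul m) x).2 ⟨h0, fun v => ?_, fun T hT => ?_⟩
  · rw [hc, ← h1 v]
    refine sum_congr ?_ fun _ _ => rfl
    ext e
    have := hends e
    simp only [mem_filter, mem_univ, true_and, mem_singleton]
    constructor
    · intro h
      by_contra hn
      rw [not_or] at hn
      exact h ⟨fun a => (hn.1 a).elim, fun a => (hn.2 a).elim⟩
    · rintro (h | h) hi
      · exact this (h.trans (hi.1 h).symm)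
      · exact this ((hi.2 h).trans h.symm)
  · rw [hc]; exact h2 T hT

end Crest.Agent.R304K
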