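import Crest.Agent.R304K.Gib

/-! Row 304 (S0467): the entropy bound at an approximately feasible point. -/

set_option autoImplicit false

namespace Crest.Agent.R304K

open Finset Crest.Matchings

theorem cut_compl {n : ℕ} {x : Fin n → Fin n → ℝ} (hx : ∀ a b, x a b = x b a)
    (S : Finset (Fin n)) : cut x Sᶜ = cut x S := by
  unfold cut
  rw [compl_compl, sum_comm]
  exact sum_congr rfl fun a _ => sum_congr rfl fun b _ => hx _ _

theorem cut_lin {n : ℕ} (x g : Fin n → Fin n → ℝ) (c : ℝ) (S : Finset (Fin n)) :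
    cut (fun a b => c * x a b + g a b) S = c * cut x S + cut g S := by
  simp only [cut, sum_add_distrib, mul_sum]

theorem exists_g {n : ℕ} (hn : 2 ≤ n) (he : Even n) (x : Fin n → Fin n → ℝ)
    (hx : ∀ a b, x a b = x b a) (hs : ∑ a, cut x {a} = n) (v : ℝ) (hv : 0 ≤ v)
    (hθ : 20 * n * v ≤ 1) (hc : ∀ S : Finset (Fin n), Odd S.card → 1 - v ≤ cut x S) :
    ∃ g : Fin n → Fin n → ℝ, (∀ a b, g a b = g b a) ∧ (∀ a b, 0 ≤ g a b) ∧
      (∀ a, (1 - 20 * n * v) * cut x {a} + cut g {a} = 1) ∧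
      ∀ S : Finset (Fin n), Odd S.card → 1 ≤ (1 - 20 * n * v) * cut x S + cut g S := by
  set θ : ℝ := 20 * n * v with hθd
  have hn' : (2 : ℝ) ≤ n := by exact_mod_cast hn
  have hθ0 : 0 ≤ θ := by positivity
  rcases hn.eq_or_lt with rfl | hn3
  · have e0 : cut x {0} = x 0 1 := by
      have : ({0} : Finset (Fin 2))ᶜ = {1} := by decide
      simp [cut, this]
    have e1 : cut x {1} = x 0 1 := by
      have : ({1} : Finset (Fin 2))ᶜ = {0} := by decide
      simp [cut, this, hx 1 0]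
    have e2 : x 0 1 = 1 := by
      rw [Fin.sum_univ_two, e0, e1] at hs
      push_cast at hs
      linarith
    have hd : ∀ a : Fin 2, (1 - θ) * cut x {a} + cut (fun _ _ => θ) {a} = 1 := by
      intro a
      have : cut (fun _ _ => θ) {a} = θ := by simp [cut, card_compl]
      rw [this]
      fin_cases a
      · simp only [Fin.zero_eta]; rw [e0, e2]; ring
      · simp only [Fin.mk_one]; rw [e1, e2]; ring
    refine ⟨fun _ _ => θ, fun _ _ => rfl, fun _ _ => hθ0, hd, fun S hS => ?_⟩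
    have h1 : S.card ≤ 2 := by simpa using card_le_univ S
    have h2 : S.card = 1 := by obtain ⟨j, hj⟩ := hS; omega
    obtain ⟨a, rfl⟩ := card_eq_one.1 h2
    exact (hd a).ge
  have hn3' : (3 : ℝ) ≤ n := by exact_mod_cast hn3
  let ε : Fin n → ℝ := fun a => (1 - θ) * (1 - cut x {a})
  have hε0 : ∑ a, ε a = 0 := by
    simp only [ε, ← mul_sum, sum_sub_distrib, hs]
    simp
  have hd1 : ∀ a, 1 - v ≤ cut x {a} := fun a => hc _ (by simp)
  have hd2 : ∀ a, cut x {a} ≤ 1 + (n - 1) * v := by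
    intro a
    have h1 := add_sum_erase univ (fun b => cut x {b}) (mem_univ a)
    have h2 : ∑ b ∈ univ.erase a, (1 - v) ≤ ∑ b ∈ univ.erase a, cut x {b} :=
      sum_le_sum fun b _ => hd1 b
    rw [sum_const, card_erase_of_mem (mem_univ a), card_univ, Fintype.card_fin, nsmul_eq_mul,
      Nat.cast_sub (by omega)] at h2
    rw [hs] at h1
    push_cast at h2
    linarith
  have hεl : ∀ a, -((n - 1) * v) ≤ ε a := by
    intro a
    have h1 := hd2 a
    have h2 : 0 ≤ (n - 1 : ℝ) * v := mul_nonneg (by linarith) hv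
    simp only [ε]
    nlinarith
  let g : Fin n → Fin n → ℝ := fun a b => θ / (n - 1) + (ε a + ε b) / (n - 2)
  have hg : ∀ a b, g a b = g b a := fun a b => by simp only [g, add_comm (ε a)]
  have hgl : ∀ a b, 16 * v ≤ g a b := by
    intro a b
    have h1 : 20 * v ≤ θ / (n - 1) := by
      rw [le_div_iff₀ (by linarith)]
      nlinarith
    have h2 : -(4 * v) ≤ (ε a + ε b) / (n - 2) := by
      rw [le_div_iff₀ (by linarith)]
      have := hεl a
      have := hεl b
      nlinarith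
    simp only [g]
    linarith
  have hd : ∀ a, (1 - θ) * cut x {a} + cut g {a} = 1 := by
    intro a
    have h1 : ∑ b ∈ ({a} : Finset (Fin n))ᶜ, ε b = -ε a := by
      have := sum_add_sum_compl {a} ε
      rw [sum_singleton, hε0] at this
      linarith
    have h2 : cut g {a} = θ + ε a := by
      simp only [cut, sum_singleton, g, sum_add_distrib, ← sum_div, h1, sum_const, card_compl,
        Fintype.card_fin, card_singleton, nsmul_eq_mul]
      rw [Nat.cast_sub (by omega)]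
      have : (n : ℝ) - 1 ≠ 0 := by linarith
      have : (n : ℝ) - 2 ≠ 0 := by linarith
      push_cast
      field_simp
      ring
    rw [h2]
    simp only [ε]
    ring
  refine ⟨g, hg, fun a b => le_trans (by positivity) (hgl a b), hd, fun S hS => ?_⟩
  have hcc : S.card + Sᶜ.card = n := by simp
  by_cases h1 : S.card = 1
  · obtain ⟨a, rfl⟩ := card_eq_one.1 h1
    exact (hd a).ge
  by_cases h2 : Sᶜ.card = 1
  · obtain ⟨a, ha⟩ := card_eq_one.1 h2
    rw [← cut_compl hx, ← cut_compl hg, ha]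
    exact (hd a).ge
  have h3 : 3 ≤ S.card ∧ 3 ≤ Sᶜ.card := by
    obtain ⟨j, hj⟩ := hS
    obtain ⟨i, hi⟩ := he
    omega
  have h4 : (S.card : ℝ) * (Sᶜ.card * (16 * v)) ≤ cut g S := by
    have : ∑ a ∈ S, ∑ b ∈ Sᶜ, 16 * v ≤ cut g S :=
      sum_le_sum fun a _ => sum_le_sum fun b _ => hgl a b
    simpa using this
  have h5 : (3 : ℝ) ≤ S.card := by exact_mod_cast h3.1
  have h6 : (3 : ℝ) ≤ Sᶜ.card := by exact_mod_cast h3.2
  have h7 : (S.card : ℝ) + Sᶜ.card = n := by exact_mod_cast hcc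
  have h8 : 3 * (n : ℝ) ≤ 2 * (S.card * Sᶜ.card) := by nlinarith
  have h9 : 24 * n * v ≤ cut g S := by nlinarith
  have h10 := mul_le_mul_of_nonneg_left (hc S hS) (sub_nonneg.2 hθ)
  nlinarith

theorem term_le (θ x g w ε : ℝ) (h0 : 0 ≤ θ) (h1 : θ ≤ 1) (hx : 0 ≤ x) (hg : 0 ≤ g) (hw : 0 ≤ w)
    (hxw : x ≠ 0 → 0 < w) (hε : 0 < ε) (hy : (1 - θ) * x + g ≤ 1) :
    (1 - θ) * (x * Real.log w + Real.negMulLog x) + g * Real.log ε - g ≤
      ((1 - θ) * x + g) * Real.log (w + ε) + Real.negMulLog ((1 - θ) * x + g) := by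
  have ha : 0 ≤ (1 - θ) * x := mul_nonneg (by linarith) hx
  have e1 : g * Real.log ε ≤ g * Real.log (w + ε) :=
    mul_le_mul_of_nonneg_left (Real.log_le_log hε (by linarith)) hg
  have e2 : (1 - θ) * x * Real.log w ≤ (1 - θ) * x * Real.log (w + ε) := by
    by_cases h : x = 0
    · simp [h]
    · exact mul_le_mul_of_nonneg_left (Real.log_le_log (hxw h) (by linarith)) ha
  have e3 : (1 - θ) * Real.negMulLog x ≤ Real.negMulLog ((1 - θ) * x) := by
    rw [Real.negMulLog_mul]
    have := mul_nonneg hx (Real.negMulLog_nonneg (sub_nonneg.2 h1) (by linarith))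
    linarith
  have e4 : Real.negMulLog ((1 - θ) * x) - g ≤ Real.negMulLog ((1 - θ) * x + g) := by
    generalize (1 - θ) * x = a at *
    rcases ha.eq_or_lt with h | h
    · subst h
      have := Real.negMulLog_nonneg hg (by linarith)
      simp only [Real.negMulLog_zero, zero_add]
      linarith
    · have hp : 0 < a + g := by linarith
      have f1 : Real.log (a + g) ≤ 0 := Real.log_nonpos hp.le hy
      have f2 := Real.log_le_sub_one_of_pos (div_pos hp h)
      rw [Real.log_div hp.ne' h.ne'] at f2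
      have f3 := mul_le_mul_of_nonneg_left f2 h.le
      have f4 : a * ((a + g) / a - 1) = g := by field_simp; ring
      rw [f4] at f3
      have f5 := mul_nonneg hg (neg_nonneg.2 f1)
      simp only [Real.negMulLog]
      nlinarith
  nlinarith

theorem key (hE : EdmStmt) (hS : EntStmt) {m : ℕ} (hm : 1 ≤ m)
    (w x : Fin (2 * m) → Fin (2 * m) → ℝ) (hw : ∀ a b, 0 ≤ w a b) (hx : ∀ a b, x a b = x b a)
    (hx0 : ∀ a b, 0 ≤ x a b) (hxw : ∀ a b, x a b ≠ 0 → 0 < w a b)
    (hs : ∑ q ∈ ltPairs (2 * m), x q.1 q.2 = m) (v ε : ℝ) (hv : 0 ≤ v) (hθ : 40 * m * v ≤ 1)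
    (hε : 0 < ε) (hc : ∀ S : Finset (Fin (2 * m)), Odd S.card → 1 - v ≤ cut x S) :
    0 < haf (fun a b => w a b + ε) ∧
    (1 - 40 * m * v) *
        ∑ q ∈ ltPairs (2 * m), (x q.1 q.2 * Real.log (w q.1 q.2) + Real.negMulLog (x q.1 q.2)) +
      40 * m * v * m * Real.log ε - 3 * m ≤ Real.log (haf fun a b => w a b + ε) := by
  have e : 20 * ((2 * m : ℕ) : ℝ) * v = 40 * m * v := by push_cast; ring
  have hs' : ∑ a, cut x {a} = (2 * m : ℕ) := by rw [sum_deg hx, hs]; push_cast; ring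
  obtain ⟨g, g1, g2, g3, g4⟩ := exists_g (n := 2 * m) (by omega) (even_two_mul m) x hx hs' v hv
    (e ▸ hθ) hc
  rw [e] at g3 g4
  set θ : ℝ := 40 * m * v with hθd
  have hθ0 : 0 ≤ θ := by positivity
  let y : Fin (2 * m) → Fin (2 * m) → ℝ := fun a b => (1 - θ) * x a b + g a b
  have hy : ∀ a b, y a b = y b a := fun a b => by simp only [y, hx a b, g1 a b]
  have hy0 : ∀ a b, 0 ≤ y a b := fun a b =>
    add_nonneg (mul_nonneg (sub_nonneg.2 hθ) (hx0 a b)) (g2 a b)
  have hd : ∀ a, cut y {a} = 1 := fun a => (cut_lin x g _ _).trans (g3 a)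
  obtain ⟨h0, h1⟩ := gib hE hS hm (fun a b => w a b + ε) y
    (fun a b => add_pos_of_nonneg_of_pos (hw a b) hε) hy (fun a b _ => hy0 a b) hd
    (fun S hS => (g4 S hS).trans_eq (cut_lin x g _ _).symm)
  refine ⟨h0, le_trans ?_ h1⟩
  have hy1 : ∀ q ∈ ltPairs (2 * m), y q.1 q.2 ≤ 1 := by
    intro q hq
    rw [← hd q.1, cut, sum_singleton]
    refine single_le_sum (f := fun b => y q.1 b) (fun b _ => hy0 _ b) ?_
    have := (mem_filter.1 hq).2.ne'
    simpa using this
  have hgs : ∑ q ∈ ltPairs (2 * m), g q.1 q.2 = θ * m := by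
    have h2 := sum_deg g1
    have h3 : ∑ a, ((1 - θ) * cut x {a} + cut g {a}) = ∑ _a : Fin (2 * m), (1 : ℝ) :=
      sum_congr rfl fun a _ => g3 a
    rw [sum_add_distrib, ← mul_sum, hs', h2] at h3
    simp only [sum_const, card_univ, Fintype.card_fin, nsmul_eq_mul, mul_one] at h3
    push_cast at h3
    linarith
  have h2 := sum_le_sum fun q (hq : q ∈ ltPairs (2 * m)) =>
    term_le θ (x q.1 q.2) (g q.1 q.2) (w q.1 q.2) ε hθ0 hθ (hx0 _ _) (g2 _ _) (hw _ _) (hxw _ _) hε
      (hy1 q hq)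
  rw [sum_sub_distrib, sum_add_distrib, ← mul_sum, ← sum_mul, hgs] at h2
  have h3 : θ * m ≤ m := mul_le_of_le_one_left (by positivity) hθ
  simp only [y]
  linarith

end Crest.Agent.R304K
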