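import Crest.Agent.R304K.Up
import Crest.Agent.R304K.Key

/-! Row 304 (S0467): the value at a stuck state of the dual local search. -/

set_option autoImplicit false

namespace Crest.Agent.R304K

open Finset Crest.Matchings

theorem sum_w_le {m β : ℕ} (hm : 1 ≤ m) (w : Fin (2 * m) → Fin (2 * m) → ℕ)
    (hβ : ∀ a b, w a b < 2 ^ β) :
    ∑ q ∈ ltPairs (2 * m), ((w q.1 q.2 : ℝ) + 1) ≤ Real.exp (β + 2 * m) := by
  have h1 : ∑ q ∈ ltPairs (2 * m), (w q.1 q.2 + 1) ≤ (ltPairs (2 * m)).card * 2 ^ β := by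
    have := sum_le_card_nsmul (ltPairs (2 * m)) (fun q => w q.1 q.2 + 1) (2 ^ β)
      fun q _ => hβ q.1 q.2
    simpa using this
  have h2 : (ltPairs (2 * m)).card ≤ 2 * m * (2 * m) := by
    simpa using card_le_univ (ltPairs (2 * m))
  have h3 : 2 * m ≤ 2 ^ m := by
    obtain ⟨j, rfl⟩ := Nat.exists_eq_add_of_le' hm
    have := Nat.lt_two_pow_self (n := j)
    rw [pow_succ]
    omega
  have h4 : ∑ q ∈ ltPairs (2 * m), (w q.1 q.2 + 1) ≤ 2 ^ (β + 2 * m) := by
    refine h1.trans ?_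
    rw [pow_add, mul_comm, two_mul m, pow_add, ← two_mul m]
    exact Nat.mul_le_mul_left _ (h2.trans (Nat.mul_le_mul h3 h3))
  have h5 : (2 : ℝ) ^ (β + 2 * m) ≤ Real.exp (β + 2 * m) := by
    have : Real.exp (β + 2 * m) = Real.exp 1 ^ (β + 2 * m) := by
      rw [← Real.exp_nat_mul]; push_cast; ring_nf
    rw [this]
    exact pow_le_pow_left₀ (by norm_num) (by have := Real.add_one_le_exp (1 : ℝ); linarith) _
  refine le_trans ?_ h5
  exact_mod_cast h4

theorem ent_le (x w Λ : ℝ) (hx : 0 ≤ x) (hw : 0 ≤ w) (hxw : x ≠ 0 → 0 < w) :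
    x * Real.log w + Real.negMulLog x ≤ x * Λ + (w / Real.exp Λ - x) := by
  rcases hx.eq_or_lt with h | h
  · subst h
    simp only [zero_mul, Real.negMulLog_zero, add_zero, sub_zero, zero_add]
    positivity
  · have hw' := hxw h.ne'
    have hE := Real.exp_pos Λ
    have h2 := Real.log_le_sub_one_of_pos (div_pos hw' (mul_pos hE h))
    rw [Real.log_div hw'.ne' (mul_pos hE h).ne', Real.log_mul hE.ne' h.ne', Real.log_exp] at h2
    have h3 := mul_le_mul_of_nonneg_left h2 h.le
    have h4 : x * (w / (Real.exp Λ * x) - 1) = w / Real.exp Λ - x := by field_simp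
    rw [h4] at h3
    simp only [Real.negMulLog]
    linarith

/-- penalised entropy bound -/
theorem pen (hE : EdmStmt) (hS : EntStmt) {m β : ℕ} (hm : 1 ≤ m)
    (w : Fin (2 * m) → Fin (2 * m) → ℕ) (hβ : ∀ a b, w a b < 2 ^ β)
    (x : Fin (2 * m) → Fin (2 * m) → ℝ) (hx : ∀ a b, x a b = x b a)
    (hx0 : ∀ a b, 0 ≤ x a b) (hxw : ∀ a b, x a b ≠ 0 → 0 < (w a b : ℝ))
    (hs : ∑ q ∈ ltPairs (2 * m), x q.1 q.2 = m) (v : ℝ) (hv : 0 ≤ v)
    (hc : ∀ S : Finset (Fin (2 * m)), Odd S.card → 1 - v ≤ cut x S) :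
    ∑ q ∈ ltPairs (2 * m), (x q.1 q.2 * Real.log (w q.1 q.2) + Real.negMulLog (x q.1 q.2)) -
      500 * m ^ 3 * (β + m + 1) * v - 3 * m ≤
      Real.log (multNumPerfectMatchings w + Real.exp (-(8 * m))) := by
  have hm' : (1 : ℝ) ≤ m := by exact_mod_cast hm
  have hβ0 : (0 : ℝ) ≤ β := by positivity
  have hw := sum_w_le hm w hβ
  have hU : ∑ q ∈ ltPairs (2 * m), (x q.1 q.2 * Real.log (w q.1 q.2) + Real.negMulLog (x q.1 q.2))
      ≤ m * (β + 2 * m) := by
    have h1 := sum_le_sum fun q (_ : q ∈ ltPairs (2 * m)) =>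
      ent_le (x q.1 q.2) (w q.1 q.2) (β + 2 * m) (hx0 _ _) (by positivity) (hxw _ _)
    rw [sum_add_distrib (f := fun q : Fin (2 * m) × Fin (2 * m) => x q.1 q.2 * (β + 2 * m)),
      sum_sub_distrib, ← sum_mul, ← sum_div, hs] at h1
    have h2 : (∑ q ∈ ltPairs (2 * m), (w q.1 q.2 : ℝ)) / Real.exp (β + 2 * m) ≤ 1 := by
      rw [div_le_one (Real.exp_pos _)]
      exact le_trans (sum_le_sum fun q _ => by linarith) hw
    linarith
  generalize hf : ∑ q ∈ ltPairs (2 * m),
    (x q.1 q.2 * Real.log (w q.1 q.2) + Real.negMulLog (x q.1 q.2)) = f at *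
  have hγ := Real.exp_pos (-(8 * (m : ℝ)))
  have hN : (0 : ℝ) ≤ multNumPerfectMatchings w := by positivity
  by_cases hθ : 40 * m * v ≤ 1
  · set ε : ℝ := Real.exp (-(m * (10 + β + 2 * m))) with hε
    have hε0 : 0 < ε := Real.exp_pos _
    have hε1 : ε ≤ 1 := Real.exp_le_one_iff.2 (neg_nonpos.2 (by positivity))
    obtain ⟨k0, k1⟩ := key hE hS hm (fun a b => (w a b : ℝ)) x (fun _ _ => by positivity) hx hx0 hxw
      hs v ε hv hθ hε0 hc
    rw [hf, hε, Real.log_exp, ← hε] at k1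
    have h1 := haf_add_le (fun a b => (w a b : ℝ)) (fun _ _ => by positivity) ε hε0.le hε1
    rw [haf_cast] at h1
    have h2 := haf_le hm (fun a b => (w a b : ℝ) + 1) (fun _ _ => by positivity)
    have h3 : haf (fun a b => (w a b : ℝ) + 1) ≤ Real.exp (m * (2 + β + 2 * m)) := by
      have e1 : haf (fun a b => (w a b : ℝ) + 1) ≤ haf (fun a b => (w a b : ℝ) + 1) * m ^ m :=
        le_mul_of_one_le_right (haf_nonneg _ fun _ _ => by positivity) (one_le_pow₀ hm')
      refine e1.trans (h2.trans ?_)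
      rw [← mul_pow, Real.exp_nat_mul]
      refine pow_le_pow_left₀ (mul_nonneg (by norm_num) (sum_nonneg fun _ _ => by positivity)) ?_ _
      rw [add_assoc, Real.exp_add]
      refine mul_le_mul ?_ hw (sum_nonneg fun _ _ => by positivity) (by positivity)
      have := Real.add_one_le_exp (2 : ℝ)
      linarith
    have h4 : ε * haf (fun a b => (w a b : ℝ) + 1) ≤ Real.exp (-(8 * m)) := by
      refine (mul_le_mul_of_nonneg_left h3 hε0.le).trans (le_of_eq ?_)
      rw [hε, ← Real.exp_add]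
      congr 1
      ring
    have h5 := Real.log_le_log k0 (h1.trans (add_le_add_right h4 _))
    refine le_trans ?_ (k1.trans h5)
    have h6 : 40 * m * v * f ≤ 40 * m * v * (m * (β + 2 * m)) :=
      mul_le_mul_of_nonneg_left hU (by positivity)
    have h7 : m * (β + 2 * m) + m * (m * (10 + β + 2 * m)) ≤ 12 * m ^ 2 * (β + m + 1 : ℝ) := by
      have : (m : ℝ) * (β + 2 * m) ≤ m * (m * (β + 2 * m)) :=
        le_mul_of_one_le_left (by positivity) hm'
      nlinarith [mul_nonneg (sq_nonneg (m : ℝ)) hβ0, mul_nonneg (sq_nonneg (m : ℝ)) (by linarith : (0 : ℝ) ≤ m)]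
    have h8 := mul_le_mul_of_nonneg_left h7 (show 0 ≤ 40 * m * v by positivity)
    have h9 : 0 ≤ (m : ℝ) ^ 3 * (β + m + 1) * v := by positivity
    nlinarith
  · have h1 : -(8 * (m : ℝ)) ≤ Real.log (multNumPerfectMatchings w + Real.exp (-(8 * m))) := by
      rw [Real.le_log_iff_exp_le (by positivity)]
      linarith
    refine le_trans ?_ h1
    push Not at hθ
    have h2 : 12 * m ^ 2 * (β + m + 1 : ℝ) * 1 ≤ 12 * m ^ 2 * (β + m + 1 : ℝ) * (40 * m * v) :=
      mul_le_mul_of_nonneg_left hθ.le (by positivity)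
    have h3 : (m : ℝ) * (β + 2 * m) + 5 * m ≤ 12 * m ^ 2 * (β + m + 1 : ℝ) := by
      have : (m : ℝ) * (β + 2 * m + 5) ≤ m * (m * (β + 2 * m + 5)) :=
        le_mul_of_one_le_left (by positivity) hm'
      nlinarith [mul_nonneg (sq_nonneg (m : ℝ)) hβ0, mul_nonneg (sq_nonneg (m : ℝ)) (by linarith : (0 : ℝ) ≤ m)]
    have h9 : 0 ≤ (m : ℝ) ^ 3 * (β + m + 1) * v := by positivity
    nlinarith

theorem psi_le (hE : EdmStmt) (hS : EntStmt) {m β D : ℕ} (hm : 1 ≤ m)
    (w : Fin (2 * m) → Fin (2 * m) → ℕ) (L : List (Finset (Fin (2 * m))))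
    (hw : ∀ a b, w a b = w b a) (hβ : ∀ a b, w a b < 2 ^ β)
    (hD : 1000 * m ^ 3 * (β + m + 1) ≤ D) (hlen : L.length = D ^ 2) (hst : Stuck w D L)
    (hZ : 0 < ZZ w D L) :
    (ZZ w D L : ℝ) ^ m ≤
      den m D * ((multNumPerfectMatchings w + Real.exp (-(8 * m))) * Real.exp (6 * m)) := by
  have hm' : (1 : ℝ) ≤ m := by exact_mod_cast hm
  have hm0 : (0 : ℝ) < m := by linarith
  have hD1 : 1 ≤ D := le_trans (Nat.succ_le_of_lt (by positivity)) hD
  have hD' : (1 : ℝ) ≤ D := by exact_mod_cast hD1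
  have hD0 : (0 : ℝ) < D := by linarith
  have hZ' : (0 : ℝ) < ZZ w D L := by exact_mod_cast hZ
  let x : Fin (2 * m) → Fin (2 * m) → ℝ := fun a b => m / ZZ w D L * uu w D L a b
  have hx : ∀ a b, x a b = x b a := fun a b => by simp only [x, uu_symm hw D L a b]
  have hx0 : ∀ a b, 0 ≤ x a b := fun a b => by positivity
  have hxw : ∀ a b, x a b ≠ 0 → 0 < (w a b : ℝ) := by
    intro a b h
    rcases Nat.eq_zero_or_pos (w a b) with h0 | h0
    · exact absurd (by simp [x, uu, h0]) h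
    · exact_mod_cast h0
  have hs : ∑ q ∈ ltPairs (2 * m), x q.1 q.2 = m := by
    have : (ZZ w D L : ℝ) = ∑ q ∈ ltPairs (2 * m), (uu w D L q.1 q.2 : ℝ) := by simp [ZZ]
    simp only [x]
    rw [← mul_sum, ← this]
    field_simp
  have hcut : ∀ S, cut x S = m / ZZ w D L * cutN (uu w D L) S := by
    intro S
    simp only [cutN_cast, cut, x, mul_sum]
  obtain ⟨T, hT, hmin⟩ := exists_min_image (univ.filter fun S : Finset (Fin (2 * m)) => Odd S.card)
    (cut x) ⟨{⟨0, by omega⟩}, by simp⟩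
  have hTo := (mem_filter.1 hT).2
  have hv : 0 ≤ 1 - cut x T := by
    have h1 : ∑ _a : Fin (2 * m), cut x T ≤ ∑ a, cut x {a} :=
      sum_le_sum fun a _ => hmin _ (by simp)
    rw [sum_deg hx, hs] at h1
    simp only [sum_const, card_univ, Fintype.card_fin, nsmul_eq_mul] at h1
    push_cast at h1
    nlinarith
  have hp := pen hE hS hm w hβ x hx hx0 hxw hs (1 - cut x T) hv
    fun S hS => by simpa using hmin S (by simpa using hS)
  have hL : ∀ S ∈ L, cut x S ≤ cut x T + 3 * m / D := by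
    intro S hS
    have h1 : (D : ℝ) * cutN (uu w D L) S ≤ D * cutN (uu w D L) T + 3 * ZZ w D L := by
      exact_mod_cast hst S hS T hTo
    have h2 : (cutN (uu w D L) S : ℝ) ≤ cutN (uu w D L) T + 3 * ZZ w D L / D := by
      rw [← sub_le_iff_le_add', le_div_iff₀ hD0]
      linarith
    rw [hcut, hcut]
    refine (mul_le_mul_of_nonneg_left h2 (by positivity)).trans (le_of_eq ?_)
    field_simp
  have hc := sum_cnt_le x hx _ L hL
  rw [hlen] at hc
  set η : ℝ := Real.log (D + 1) - Real.log D with hη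
  have hη1 : η ≤ 1 / D := by
    have := Real.log_le_sub_one_of_pos (show 0 < ((D : ℝ) + 1) / D by positivity)
    rw [Real.log_div (by positivity) hD0.ne'] at this
    refine this.trans (le_of_eq ?_)
    field_simp
    ring
  have hη2 : 1 / (2 * D) ≤ η := by
    have := Real.log_le_sub_one_of_pos (show 0 < (D : ℝ) / (D + 1) by positivity)
    rw [Real.log_div hD0.ne' (by positivity)] at this
    have h2 : (D : ℝ) / (D + 1) - 1 = -(1 / (D + 1)) := by field_simp; ring
    have h3 : 1 / (2 * D : ℝ) ≤ 1 / (D + 1) := one_div_le_one_div_of_le (by positivity) (by linarith)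
    linarith
  have hη0 : 0 ≤ η := le_trans (by positivity) hη2
  have hf : ∑ q ∈ ltPairs (2 * m), (x q.1 q.2 * Real.log (w q.1 q.2) + Real.negMulLog (x q.1 q.2)) =
      m * (Real.log (ZZ w D L) - Real.log m - (D : ℝ) ^ 2 * Real.log D) -
        η * ∑ q ∈ ltPairs (2 * m), x q.1 q.2 * cnt L q.1 q.2 := by
    conv_rhs => rw [← hs]
    rw [sum_mul, mul_sum, ← sum_sub_distrib, hs]
    refine sum_congr rfl fun q _ => ?_
    by_cases h : x q.1 q.2 = 0
    · simp [h]
    have h1 := hxw _ _ h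
    have h2 : Real.log (x q.1 q.2) = Real.log m - Real.log (ZZ w D L) + (Real.log (w q.1 q.2) +
        cnt L q.1 q.2 * Real.log (D + 1) + ((D : ℝ) ^ 2 - cnt L q.1 q.2) * Real.log D) := by
      have h3 := cnt_le L q.1 q.2
      simp only [x, uu]
      push_cast
      rw [Real.log_mul (by positivity) (by positivity), Real.log_div hm0.ne' hZ'.ne',
        Real.log_mul (by positivity) (by positivity), Real.log_mul (by positivity) (by positivity),
        Real.log_pow, Real.log_pow, Nat.cast_sub h3, hlen]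
      push_cast
      ring
    simp only [Real.negMulLog]
    rw [h2, hη]
    ring
  have hden : Real.log (den m D) =
      (D : ℝ) ^ 2 * Real.log (D + 1) + (D : ℝ) ^ 2 * (m - 1) * Real.log D + m * Real.log m := by
    unfold den
    push_cast
    rw [Real.log_mul (by positivity) (by positivity), Real.log_mul (by positivity) (by positivity),
      Real.log_pow, Real.log_pow, Real.log_pow]
    push_cast [Nat.cast_sub hm]
    ring
  have hden0 : (0 : ℝ) < den m D := by
    unfold den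
    positivity
  have hγ := Real.exp_pos (-(8 * (m : ℝ)))
  rw [← Real.log_le_log_iff (by positivity) (by positivity), Real.log_pow,
    Real.log_mul hden0.ne' (by positivity), Real.log_mul (by positivity) (by positivity),
    Real.log_exp, hden]
  rw [hf] at hp
  have h1 := mul_le_mul_of_nonneg_left hc hη0
  push_cast at h1
  have h2 : η * (D : ℝ) ^ 2 * (3 * m / D) ≤ 3 * m := by
    have : η * (D : ℝ) ^ 2 * (3 * m / D) = η * D * (3 * m) := by field_simp
    rw [this]
    refine mul_le_of_le_one_left (by positivity) ?_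
    rwa [le_div_iff₀ hD0] at hη1
  have h3 : 500 * (m : ℝ) ^ 3 * (β + m + 1) ≤ η * (D : ℝ) ^ 2 := by
    have e1 : 1000 * (m : ℝ) ^ 3 * (β + m + 1) ≤ D := by exact_mod_cast hD
    rw [div_le_iff₀ (by positivity)] at hη2
    nlinarith
  have h4 := mul_le_mul_of_nonneg_right h3 hv
  have h5 : Real.log (D + 1) = η + Real.log D := by rw [hη]; ring
  rw [h5]
  nlinarith

theorem final (hE : EdmStmt) (hS : EntStmt) : FinalStmt := by
  intro m β D w L hm hw hβ hD hlen hodd hst
  have hup := up hm w D L hlen hodd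
  have hD1 : 1 ≤ D := le_trans (Nat.succ_le_of_lt (by positivity)) hD
  have hden : 0 < den m D := by
    unfold den
    positivity
  rcases Nat.eq_zero_or_pos (ZZ w D L) with hZ | hZ
  · have h0 : multNumPerfectMatchings w = 0 := by
      rw [hZ, zero_pow (by omega), mul_zero, Nat.le_zero] at hup
      exact (Nat.mul_eq_zero.1 hup).resolve_right hden.ne'
    have h1 : out m D (ZZ w D L) = 0 := by
      unfold out
      rw [hZ, zero_pow (by omega), mul_zero, if_pos hden]
    rw [h0, h1]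
    simp
  have hpsi := psi_le hE hS hm w L hw hβ hD hlen hst hZ
  have hden' : (0 : ℝ) < den m D := by exact_mod_cast hden
  have hm' : (1 : ℝ) ≤ m := by exact_mod_cast hm
  generalize ZZ w D L = Z at *
  generalize multNumPerfectMatchings w = N at *
  rcases Nat.eq_zero_or_pos N with rfl | hN
  · have h1 : 3 ^ m * Z ^ m < den m D := by
      have h2 : (3 : ℝ) ^ m * (Real.exp (-(8 * m)) * Real.exp (6 * m)) < 1 := by
        rw [← Real.exp_add, show -(8 * (m : ℝ)) + 6 * m = m * (-2) by ring, Real.exp_nat_mul,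
          ← mul_pow]
        refine pow_lt_one₀ (by positivity) ?_ (by omega)
        rw [Real.exp_neg, ← div_eq_mul_inv, div_lt_one (Real.exp_pos _)]
        have := Real.add_one_lt_exp (show (2 : ℝ) ≠ 0 by norm_num)
        linarith
      have h3 : (3 : ℝ) ^ m * (Z : ℝ) ^ m < den m D := by
        have := mul_le_mul_of_nonneg_left hpsi (show (0 : ℝ) ≤ 3 ^ m by positivity)
        simp only [Nat.cast_zero, zero_add] at this
        nlinarith
      exact_mod_cast h3
    unfold out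
    rw [if_pos h1]
    simp
  have h1 : ¬ 3 ^ m * Z ^ m < den m D :=
    not_lt.2 ((Nat.le_mul_of_pos_left _ hN).trans hup)
  have h2 : Z ^ m ≤ N * (den m D * 2 ^ (12 * m)) := by
    have hN' : (1 : ℝ) ≤ N := by exact_mod_cast hN
    have e1 : Real.exp (-(8 * m)) ≤ 1 := Real.exp_le_one_iff.2 (neg_nonpos.2 (by positivity))
    have e2 : 2 * Real.exp (6 * m) ≤ 2 ^ (12 * m) := by
      have e3 : Real.exp (6 * m) = Real.exp 1 ^ (6 * m) := by
        rw [← Real.exp_nat_mul]; push_cast; ring_nf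
      have e4 : Real.exp 1 ^ (6 * m) ≤ 3 ^ (6 * m) :=
        pow_le_pow_left₀ (by positivity) (Real.exp_one_lt_d9.le.trans (by norm_num)) _
      have e5 : (2 : ℝ) ≤ 2 ^ m := le_self_pow₀ (by norm_num) (by omega)
      calc 2 * Real.exp (6 * m) ≤ 2 ^ m * 3 ^ (6 * m) := by
            rw [e3]; exact mul_le_mul e5 e4 (by positivity) (by positivity)
        _ = (2 * 3 ^ 6) ^ m := by rw [mul_pow, ← pow_mul]
        _ ≤ (2 ^ 12) ^ m := pow_le_pow_left₀ (by norm_num) (by norm_num) _
        _ = _ := by rw [← pow_mul]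
    have e6 : ((N : ℝ) + Real.exp (-(8 * m))) * Real.exp (6 * m) ≤ N * 2 ^ (12 * m) := by
      calc _ ≤ (N * 2) * Real.exp (6 * m) :=
            mul_le_mul_of_nonneg_right (by linarith) (by positivity)
        _ = N * (2 * Real.exp (6 * m)) := by ring
        _ ≤ _ := mul_le_mul_of_nonneg_left e2 (by positivity)
    have e7 : (Z : ℝ) ^ m ≤ N * (den m D * 2 ^ (12 * m)) :=
      hpsi.trans ((mul_le_mul_of_nonneg_left e6 hden'.le).trans (le_of_eq (by ring)))
    exact_mod_cast e7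
  unfold out
  rw [if_neg h1]
  have hq : 0 < den m D * 2 ^ (12 * m) := by positivity
  refine ⟨?_, max_le hN (Nat.div_le_of_le_mul (by rwa [mul_comm]))⟩
  have h3 := Nat.lt_mul_div_succ (Z ^ m) hq
  generalize Z ^ m / (den m D * 2 ^ (12 * m)) = A at *
  have h4 : A + 1 ≤ 2 * max 1 A := by omega
  have h5 : 3 ^ m * 2 ^ (12 * m) * 2 ≤ 512 ^ (2 * m) := by
    calc 3 ^ m * 2 ^ (12 * m) * 2 ≤ 3 ^ m * 2 ^ (12 * m) * 2 ^ m :=
          Nat.mul_le_mul_left _ (Nat.le_self_pow (by omega) 2)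
      _ = (3 * 2 ^ 12 * 2) ^ m := by rw [mul_pow, mul_pow, ← pow_mul]
      _ ≤ (512 ^ 2) ^ m := Nat.pow_le_pow_left (by norm_num) _
      _ = _ := by rw [← pow_mul]
  refine Nat.le_of_mul_le_mul_right (c := den m D) ?_ hden
  calc N * den m D ≤ 3 ^ m * Z ^ m := hup
    _ ≤ 3 ^ m * (den m D * 2 ^ (12 * m) * (2 * max 1 A)) :=
        Nat.mul_le_mul_left _ (h3.le.trans (Nat.mul_le_mul_left _ h4))
    _ = 3 ^ m * 2 ^ (12 * m) * 2 * max 1 A * den m D := by ring
    _ ≤ _ := Nat.mul_le_mul_right _ (Nat.mul_le_mul_right _ h5)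

end Crest.Agent.R304K
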