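import Crest.Agent.R304K.Alg
import Crest.Prelude.Def_Matchings

/-! Row 304: a deterministic polynomial-time test for the existence of a perfect matching. -/

set_option autoImplicit false

namespace Crest.Agent.R304K

open Finset Crest.Agent.PT Crest.Agent.QC Crest.Agent.R317 Crest.Agent.R302
open Crest.Matchings

/-- zero-one multiplicities of a simple graph -/
def adjW {n : ℕ} (G : SimpleGraph (Fin n)) [DecidableRel G.Adj] (a b : Fin n) : ℕ :=
  if G.Adj a b then 1 else 0

theorem mk_injOn (n : ℕ) :
    Set.InjOn (fun q : Fin n × Fin n => s(q.1, q.2)) (ltPairs n : Set (Fin n × Fin n)) := by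
  intro p hp q hq h
  have hp' : p.1 < p.2 := (mem_filter.1 (mem_coe.1 hp)).2
  have hq' : q.1 < q.2 := (mem_filter.1 (mem_coe.1 hq)).2
  rcases Sym2.eq_iff.1 h with ⟨h1, h2⟩ | ⟨h1, h2⟩
  · exact Prod.ext h1 h2
  · rw [h1, h2] at hp'; exact absurd hp' (not_lt.2 hq'.le)

theorem num_eq_mult {n : ℕ} (G : SimpleGraph (Fin n)) [DecidableRel G.Adj] :
    numPerfectMatchings G = multNumPerfectMatchings (adjW G) := by
  classical
  unfold numPerfectMatchings multNumPerfectMatchings adjW
  have e0 : ∀ M : Finset (Fin n × Fin n), (∏ q ∈ M, if G.Adj q.1 q.2 then 1 else 0) =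
      if ∀ q ∈ M, G.Adj q.1 q.2 then 1 else 0 := fun M => by
    split_ifs with h
    · exact prod_eq_one fun q hq => if_pos (h q hq)
    · push Not at h
      obtain ⟨q, hq, h⟩ := h
      exact prod_eq_zero hq (if_neg h)
  simp only [e0]
  rw [← card_filter, filter_filter]
  symm
  have hcard : ∀ M ⊆ ltPairs n, ∀ v : Fin n,
      ((M.image fun q : Fin n × Fin n => s(q.1, q.2)).filter fun e => v ∈ e).card =
        (M.filter fun q => q.1 = v ∨ q.2 = v).card := by
    intro M hM v
    rw [filter_image, card_image_of_injOn ((mk_injOn n).mono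
      (coe_subset.2 ((filter_subset _ _).trans hM)))]
    congr 1
    ext q; simp [eq_comm]
  refine card_bij (fun M _ => M.image fun q : Fin n × Fin n => s(q.1, q.2)) ?_ ?_ ?_
  · intro M hM
    simp only [mem_filter, mem_powerset] at hM ⊢
    refine ⟨fun e he => ?_, fun v => by rw [hcard M hM.1, hM.2.1]⟩
    obtain ⟨q, hq, rfl⟩ := mem_image.1 he
    simpa using hM.2.2 q hq
  · intro M hM M' hM' h
    simp only [mem_filter, mem_powerset] at hM hM'
    exact (mk_injOn n).image_eq_image_iff (coe_subset.2 hM.1) (coe_subset.2 hM'.1) |>.1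
      (by rw [← coe_image, ← coe_image]; exact congrArg _ h) |> coe_injective
  · intro E hE
    simp only [mem_filter, mem_powerset] at hE
    have him : ((ltPairs n).filter fun q => s(q.1, q.2) ∈ E).image
        (fun q : Fin n × Fin n => s(q.1, q.2)) = E := by
      ext e
      simp only [mem_image, mem_filter]
      constructor
      · rintro ⟨q, hq, rfl⟩; exact hq.2
      · induction e using Sym2.ind with
        | _ a b =>
          intro he
          have hab : G.Adj a b := by simpa using hE.1 he
          rcases lt_or_gt_of_ne hab.ne with h | h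
          · exact ⟨(a, b), ⟨by simp [ltPairs, h], he⟩, rfl⟩
          · exact ⟨(b, a), ⟨by simp [ltPairs, h], by rwa [Sym2.eq_swap]⟩, Sym2.eq_swap⟩
    refine ⟨_, ?_, him⟩
    simp only [mem_filter, mem_powerset]
    refine ⟨filter_subset _ _, fun v => ?_, fun q hq => by simpa using hE.1 hq.2⟩
    rw [← hcard _ (filter_subset _ _), him, hE.2]

/-- The test, on the number of vertices and the adjacency bits row by row. -/
noncomputable def hasPM (n : ℕ) (adj : List Bool) : Prop :=
  n = 0 ∨ (n % 2 = 0 ∧ Alg.mainA n 1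
    (mkL n fun a => mkL n fun b => if adj.getD (a * n + b) false = true then 1 else 0) ≠ 0)

theorem dt_hasPM {α : Type} [Enc α] {n : α → ℕ} {adj : α → List Bool} (hn : PT n) (ha : PT adj) :
    DT (fun x => hasPM (n x) (adj x)) :=
  DT.or (by fun_prop) (DT.and (by fun_prop)
    (DT.ne (Alg.bt_mainA hn (PT.const 1) (by fun_prop)) (BT.const 0)))

theorem hasPM_iff (hS : StepStmt) (hI : IterStmt) (hF : FinalStmt) {n : ℕ} (G : SimpleGraph (Fin n))
    [DecidableRel G.Adj] (adj : List Bool)
    (h : ∀ a b : Fin n, adj.getD (a * n + b) false = decide (G.Adj a b)) :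
    hasPM n adj ↔ numPerfectMatchings G ≠ 0 := by
  rw [num_eq_mult]
  unfold hasPM
  rcases Nat.eq_zero_or_pos n with h0 | h0
  · subst h0
    have : ltPairs 0 = ∅ := by ext q; exact q.1.elim0
    simp [multNumPerfectMatchings, this]
  rcases Nat.mod_two_eq_zero_or_one n with h2 | h2
  · obtain ⟨m, rfl⟩ : ∃ m, n = 2 * m := ⟨n / 2, by omega⟩
    obtain ⟨h3, h4⟩ := Alg.mainA_spec hS hI hF m 1 (mkL (2 * m) fun a => mkL (2 * m) fun b =>
      if adj.getD (a * (2 * m) + b) false = true then 1 else 0) (adjW G) (by omega)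
      (fun a b => by rw [gz_mkL _ a.2 b.2, h]; simp [adjW])
      (fun a b => by simp only [adjW, G.adj_comm]) (fun a b => by unfold adjW; split_ifs <;> omega)
    constructor
    · rintro (h5 | ⟨-, h5⟩) <;> omega
    · intro h5
      refine Or.inr ⟨h2, fun h6 => ?_⟩
      rw [h6] at h3; omega
  · rw [Alg.zero_of _ (Or.inr h2)]
    constructor
    · rintro (h5 | ⟨h5, -⟩) <;> omega
    · intro h5; exact (h5 rfl).elim

end Crest.Agent.R304K
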