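import Crest.Agent.R304K.Defs

/-! Row 304 (S0467): one exchange step and termination of the dual local search. -/

set_option autoImplicit false

namespace Crest.Agent.R304K

open Finset Crest.Matchings

variable {n : ℕ}

theorem cnt_symm (L : List (Finset (Fin n))) (a b : Fin n) : cnt L a b = cnt L b a := by
  unfold cnt
  congr 1
  funext S
  simp only [iff_comm]

theorem cnt_le (L : List (Finset (Fin n))) (a b : Fin n) : cnt L a b ≤ L.length :=
  List.countP_le_length

theorem uu_symm {w : Fin n → Fin n → ℕ} (hw : ∀ a b, w a b = w b a) (D : ℕ)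
    (L : List (Finset (Fin n))) (a b : Fin n) : uu w D L a b = uu w D L b a := by
  simp only [uu, hw a b, cnt_symm L a b]

theorem cutN_cast (u : Fin n → Fin n → ℕ) (S : Finset (Fin n)) :
    (cutN u S : ℝ) = cut (fun a b => (u a b : ℝ)) S := by
  simp [cutN, cut]

theorem cutN_eq {u : Fin n → Fin n → ℕ} (hu : ∀ a b, u a b = u b a) (S : Finset (Fin n)) :
    cutN u S = ∑ q ∈ ltPairs n, if ¬ (q.1 ∈ S ↔ q.2 ∈ S) then u q.1 q.2 else 0 := by
  have h := cut_eq (x := fun a b => (u a b : ℝ)) (fun a b => by rw [hu]) S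
  rw [← cutN_cast] at h
  rw [← sum_filter]
  exact_mod_cast h.symm

theorem uu_perm (w : Fin n → Fin n → ℕ) (D : ℕ) {L R : List (Finset (Fin n))} {S : Finset (Fin n)}
    (h : L.Perm (S :: R)) (a b : Fin n) :
    uu w D L a b = uu w D R a b * if ¬ (a ∈ S ↔ b ∈ S) then D + 1 else D := by
  have h1 : cnt L a b = cnt R a b + if ¬ (a ∈ S ↔ b ∈ S) then 1 else 0 := by
    unfold cnt
    rw [h.countP_eq, List.countP_cons]
    simp
  have h2 := cnt_le R a b
  unfold uu
  rw [h1, h.length_eq, List.length_cons]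
  split_ifs with h3
  · rw [add_zero, Nat.succ_sub h2, pow_succ]
    ring
  · rw [Nat.add_sub_add_right, pow_succ]
    ring

theorem step : StepStmt := by
  intro n w D L L' R S T hw hD hL hL' hlt
  have hu := uu_symm hw D L
  have hSZ : cutN (uu w D L) S ≤ ZZ w D L := by
    rw [cutN_eq hu]
    exact sum_le_sum fun q _ => by split_ifs <;> simp
  have hTZ : cutN (uu w D L) T ≤ ZZ w D L := by
    rw [cutN_eq hu]
    exact sum_le_sum fun q _ => by split_ifs <;> simp
  have key : D * (D + 1) * ZZ w D L' + D * cutN (uu w D L) S ≤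
      D * (D + 1) * ZZ w D L + (D + 1) * cutN (uu w D L) T := by
    rw [cutN_eq hu, cutN_eq hu]
    unfold ZZ
    simp only [mul_sum, ← sum_add_distrib]
    refine sum_le_sum fun q _ => ?_
    rw [uu_perm w D hL, uu_perm w D hL']
    generalize uu w D R q.1 q.2 = r
    by_cases h1 : (q.1 ∈ S ↔ q.2 ∈ S) <;> by_cases h2 : (q.1 ∈ T ↔ q.2 ∈ T) <;>
      simp only [h1, h2, not_true, not_false_eq_true, if_true, if_false] <;> nlinarith
  have hZ : 0 < ZZ w D L := by
    by_contra h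
    have h0 : ZZ w D L = 0 := by omega
    have h1 : cutN (uu w D L) S = 0 := by omega
    rw [h1] at hlt
    omega
  refine ⟨hZ, ?_⟩
  generalize ZZ w D L = Z at *
  generalize ZZ w D L' = Z' at *
  generalize cutN (uu w D L) S = s at *
  generalize cutN (uu w D L) T = t at *
  have h1 : D * (D + 1) * Z' + 2 * Z ≤ D * (D + 1) * Z := by nlinarith
  have h2 : (D + 1) * (D ^ 2 * Z' + Z) ≤ (D + 1) * (D ^ 2 * Z) := by
    have h3 := Nat.mul_le_mul_left D h1
    have h4 : (D + 1) * Z ≤ 2 * D * Z := Nat.mul_le_mul_right _ (by omega)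
    nlinarith
  exact Nat.le_of_mul_le_mul_left h2 (by omega)

theorem ZZ_bounds (w : Fin n → Fin n → ℕ) (D : ℕ) (L : List (Finset (Fin n))) :
    D ^ L.length * ∑ q ∈ ltPairs n, w q.1 q.2 ≤ ZZ w D L ∧
      ZZ w D L ≤ (D + 1) ^ L.length * ∑ q ∈ ltPairs n, w q.1 q.2 := by
  unfold ZZ uu
  simp only [mul_sum]
  constructor <;> refine sum_le_sum fun q _ => ?_
  · obtain ⟨j, hj⟩ := Nat.exists_eq_add_of_le (cnt_le L q.1 q.2)
    rw [hj, Nat.add_sub_cancel_left, pow_add, mul_comm, mul_assoc]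
    gcongr
    omega
  · obtain ⟨j, hj⟩ := Nat.exists_eq_add_of_le (cnt_le L q.1 q.2)
    rw [hj, Nat.add_sub_cancel_left, pow_add, mul_comm _ (w _ _), mul_assoc]
    gcongr
    omega

theorem iter_core (w : Fin n → Fin n → ℕ) (D T : ℕ) (L : ℕ → List (Finset (Fin n))) (hD : 1 ≤ D)
    (hlen : ∀ t, (L t).length = D ^ 2) (hT : D ^ 3 + 1 ≤ T)
    (h : ∀ t < T, 0 < ZZ w D (L t) ∧
      D ^ 2 * ZZ w D (L (t + 1)) + ZZ w D (L t) ≤ D ^ 2 * ZZ w D (L t)) : False := by
  have hD' : (1 : ℝ) ≤ D := by exact_mod_cast hD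
  have hD0 : (0 : ℝ) < D := by linarith
  have h1 : ∀ t ≤ T, (ZZ w D (L t) : ℝ) ≤ Real.exp (-(t / (D : ℝ) ^ 2)) * ZZ w D (L 0) := by
    intro t
    induction t with
    | zero => simp
    | succ t ih =>
      intro ht
      have h2 : (D : ℝ) ^ 2 * ZZ w D (L (t + 1)) + ZZ w D (L t) ≤ (D : ℝ) ^ 2 * ZZ w D (L t) := by
        exact_mod_cast (h t (by omega)).2
      have h3 : (ZZ w D (L (t + 1)) : ℝ) ≤ (-(1 / (D : ℝ) ^ 2) + 1) * ZZ w D (L t) := by
        have : (-(1 / (D : ℝ) ^ 2) + 1) * ZZ w D (L t) =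
            ((D : ℝ) ^ 2 * ZZ w D (L t) - ZZ w D (L t)) / (D : ℝ) ^ 2 := by field_simp; ring
        rw [this, le_div_iff₀ (by positivity)]
        linarith
      have h4 := Real.add_one_le_exp (-(1 / (D : ℝ) ^ 2))
      calc (ZZ w D (L (t + 1)) : ℝ) ≤ Real.exp (-(1 / (D : ℝ) ^ 2)) * ZZ w D (L t) :=
            h3.trans (mul_le_mul_of_nonneg_right h4 (by positivity))
        _ ≤ Real.exp (-(1 / (D : ℝ) ^ 2)) * (Real.exp (-(t / (D : ℝ) ^ 2)) * ZZ w D (L 0)) :=
            mul_le_mul_of_nonneg_left (ih (by omega)) (by positivity)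
        _ = _ := by
            rw [← mul_assoc, ← Real.exp_add]
            congr 2
            push_cast
            ring
  have b0 := (ZZ_bounds w D (L 0)).2
  have bT := (ZZ_bounds w D (L T)).1
  rw [hlen] at b0 bT
  have p0 := (h 0 (by omega)).1
  generalize ∑ q ∈ ltPairs n, w q.1 q.2 = W at b0 bT
  have hW : 0 < W := by
    rcases Nat.eq_zero_or_pos W with rfl | hW
    · omega
    · exact hW
  have hW' : (0 : ℝ) < W := by exact_mod_cast hW
  have b0' : (ZZ w D (L 0) : ℝ) ≤ ((D : ℝ) + 1) ^ (D ^ 2) * W := by exact_mod_cast b0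
  have bT' : (D : ℝ) ^ (D ^ 2) * W ≤ ZZ w D (L T) := by exact_mod_cast bT
  have h2 : ((D : ℝ) + 1) ^ (D ^ 2) ≤ Real.exp D * (D : ℝ) ^ (D ^ 2) := by
    have h3 : (D : ℝ) + 1 ≤ Real.exp (1 / D) * D := by
      have := Real.add_one_le_exp (1 / (D : ℝ))
      calc (D : ℝ) + 1 = (1 / D + 1) * D := by field_simp; ring
        _ ≤ _ := mul_le_mul_of_nonneg_right this hD0.le
    calc ((D : ℝ) + 1) ^ (D ^ 2) ≤ (Real.exp (1 / D) * D) ^ (D ^ 2) :=
          pow_le_pow_left₀ (by positivity) h3 _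
      _ = _ := by
          rw [mul_pow, ← Real.exp_nat_mul]
          congr 2
          push_cast
          field_simp
  have h3 : Real.exp (-(T / (D : ℝ) ^ 2)) * Real.exp D < 1 := by
    rw [← Real.exp_add, Real.exp_lt_one_iff]
    have hT' : (D : ℝ) ^ 3 + 1 ≤ T := by exact_mod_cast hT
    have : (D : ℝ) < T / (D : ℝ) ^ 2 := by
      rw [lt_div_iff₀ (by positivity)]
      nlinarith
    linarith
  have h4 := h1 T le_rfl
  have h5 : (0 : ℝ) < (D : ℝ) ^ (D ^ 2) * W := by positivity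
  have h6 : Real.exp (-(T / (D : ℝ) ^ 2)) * ZZ w D (L 0) ≤
      Real.exp (-(T / (D : ℝ) ^ 2)) * (Real.exp D * (D : ℝ) ^ (D ^ 2) * W) :=
    mul_le_mul_of_nonneg_left (b0'.trans (mul_le_mul_of_nonneg_right h2 hW'.le)) (by positivity)
  nlinarith

theorem iter : IterStmt := by
  intro n w D T L hD hlen hstep hT
  by_contra hns
  have hall : ∀ t, Stuck w D (L t) → ∀ j, L (t + j) = L t := by
    intro t hs j
    induction j with
    | zero => rfl
    | succ j ih =>
      rcases hstep (t + j) with h | h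
      · rw [← add_assoc, h.2, ih]
      · exact absurd (ih ▸ hs) h.1
  refine iter_core w D T L hD hlen hT fun t ht => ?_
  rcases hstep t with h | h
  · obtain ⟨j, rfl⟩ := Nat.exists_eq_add_of_le ht.le
    exact absurd (hall t h.1 j ▸ h.1) hns
  · exact h.2

/-- Version for the iteration of a map on an arbitrary state space. -/
theorem iterF {σ : Type} (w : Fin n → Fin n → ℕ) (D T : ℕ) (F : σ → σ)
    (l : σ → List (Finset (Fin n))) (I : σ → Prop) (s₀ : σ) (hD : 1 ≤ D) (h0 : I s₀)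
    (hI : ∀ s, I s → I (F s)) (hlen : ∀ s, I s → (l s).length = D ^ 2)
    (hstep : ∀ s, I s → (Stuck w D (l s) ∧ F s = s) ∨ (0 < ZZ w D (l s) ∧
      D ^ 2 * ZZ w D (l (F s)) + ZZ w D (l s) ≤ D ^ 2 * ZZ w D (l s)))
    (hT : D ^ 3 + 1 ≤ T) : I (F^[T] s₀) ∧ Stuck w D (l (F^[T] s₀)) := by
  have hIt : ∀ t, I (F^[t] s₀) := by
    intro t
    induction t with
    | zero => exact h0
    | succ t ih => rw [Function.iterate_succ_apply']; exact hI _ ih
  refine ⟨hIt T, ?_⟩
  by_contra hns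
  refine iter_core w D T (fun t => l (F^[t] s₀)) hD (fun t => hlen _ (hIt t)) hT fun t ht => ?_
  rcases hstep _ (hIt t) with h | h
  · obtain ⟨j, rfl⟩ := Nat.exists_eq_add_of_le ht.le
    rw [add_comm, Function.iterate_add_apply, Function.iterate_fixed h.2] at hns
    exact absurd h.1 hns
  · simpa only [Function.iterate_succ_apply'] using h

end Crest.Agent.R304K
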