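import Crest.Agent.R304K.Step

/-! Row 304 (S0467): counting upper bounds. -/

set_option autoImplicit false

namespace Crest.Agent.R304K

open Finset Crest.Matchings

variable {n : ℕ}

theorem pm_count {M : Finset (Fin n × Fin n)} (hM : M ∈ PMs n) (S : Finset (Fin n)) :
    ∑ q ∈ M, (S.filter fun v => q.1 = v ∨ q.2 = v).card = S.card := by
  have h := (mem_filter.1 hM).2
  simp only [card_filter] at h ⊢
  rw [sum_comm]
  simp only [h]
  simp

theorem pm_ne {M : Finset (Fin n × Fin n)} (hM : M ∈ PMs n) {q : Fin n × Fin n} (hq : q ∈ M) :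
    q.1 ≠ q.2 := (mem_filter.1 (mem_powerset.1 (mem_filter.1 hM).1 hq)).2.ne

theorem pm_card {m : ℕ} {M : Finset (Fin (2 * m) × Fin (2 * m))} (hM : M ∈ PMs (2 * m)) :
    M.card = m := by
  have h := pm_count hM univ
  have h2 : ∀ q ∈ M, (univ.filter fun v => q.1 = v ∨ q.2 = v).card = 2 := by
    intro q hq
    have : (univ.filter fun v => q.1 = v ∨ q.2 = v) = {q.1, q.2} := by
      ext v; simp [eq_comm]
    rw [this, card_pair (pm_ne hM hq)]
  rw [sum_congr rfl h2] at h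
  simp only [sum_const, smul_eq_mul, card_univ, Fintype.card_fin] at h
  omega

theorem pm_cross {M : Finset (Fin n × Fin n)} (hM : M ∈ PMs n) {S : Finset (Fin n)}
    (hS : Odd S.card) : ∃ q ∈ M, ¬ (q.1 ∈ S ↔ q.2 ∈ S) := by
  by_contra h
  push Not at h
  rw [← pm_count hM S, ← Nat.not_even_iff_odd] at hS
  refine hS (even_sum _ fun q hq => ?_)
  by_cases h1 : q.1 ∈ S
  · have h2 := (h q hq).1 h1
    have : (S.filter fun v => q.1 = v ∨ q.2 = v) = {q.1, q.2} := by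
      ext v
      simp only [mem_filter, mem_insert, mem_singleton]
      constructor
      · rintro ⟨-, h | h⟩ <;> simp [h]
      · rintro (rfl | rfl) <;> simp [h1, h2]
    rw [this, card_pair (pm_ne hM hq)]
    exact even_two
  · have h2 : q.2 ∉ S := fun h' => h1 ((h q hq).2 h')
    have : (S.filter fun v => q.1 = v ∨ q.2 = v) = ∅ := by
      refine filter_eq_empty_iff.2 fun v hv => ?_
      rintro (rfl | rfl)
      exacts [h1 hv, h2 hv]
    rw [this]
    simp

theorem haf_le_exp {m : ℕ} (W : Fin (2 * m) → Fin (2 * m) → ℝ) (hW : ∀ a b, 0 ≤ W a b) (t : ℝ)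
    (ht : 0 ≤ t) : t ^ m * haf W ≤ Real.exp (t * ∑ q ∈ ltPairs (2 * m), W q.1 q.2) := by
  have h1 : t ^ m * haf W = ∑ M ∈ PMs (2 * m), ∏ q ∈ M, t * W q.1 q.2 := by
    rw [haf, mul_sum]
    refine sum_congr rfl fun M hM => ?_
    rw [prod_mul_distrib, prod_const, pm_card hM]
  rw [h1, mul_sum, Real.exp_sum]
  calc _ ≤ ∑ M ∈ (ltPairs (2 * m)).powerset, ∏ q ∈ M, t * W q.1 q.2 :=
        sum_le_sum_of_subset_of_nonneg (filter_subset _ _) fun M _ _ =>
          prod_nonneg fun q _ => mul_nonneg ht (hW _ _)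
    _ = ∏ q ∈ ltPairs (2 * m), (1 + t * W q.1 q.2) := (prod_one_add _).symm
    _ ≤ _ := prod_le_prod (fun q _ => by have := mul_nonneg ht (hW q.1 q.2); linarith)
        fun q _ => by have := Real.add_one_le_exp (t * W q.1 q.2); linarith

theorem haf_nonneg (W : Fin n → Fin n → ℝ) (hW : ∀ a b, 0 ≤ W a b) : 0 ≤ haf W :=
  sum_nonneg fun _ _ => prod_nonneg fun _ _ => hW _ _

theorem haf_le {m : ℕ} (hm : 1 ≤ m) (W : Fin (2 * m) → Fin (2 * m) → ℝ) (hW : ∀ a b, 0 ≤ W a b) :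
    haf W * m ^ m ≤ 3 ^ m * (∑ q ∈ ltPairs (2 * m), W q.1 q.2) ^ m := by
  have hZ : 0 ≤ ∑ q ∈ ltPairs (2 * m), W q.1 q.2 := sum_nonneg fun _ _ => hW _ _
  rcases hZ.eq_or_lt with h | h
  · have h0 : haf W = 0 := by
      refine sum_eq_zero fun M hM => ?_
      obtain ⟨q, hq⟩ : M.Nonempty := card_pos.1 (by rw [pm_card hM]; omega)
      refine prod_eq_zero hq ?_
      exact (sum_eq_zero_iff_of_nonneg fun _ _ => hW _ _).1 h.symm q
        (mem_powerset.1 (mem_filter.1 hM).1 hq)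
    rw [h0, zero_mul]
    positivity
  · have h1 := haf_le_exp W hW (m / ∑ q ∈ ltPairs (2 * m), W q.1 q.2) (by positivity)
    generalize ∑ q ∈ ltPairs (2 * m), W q.1 q.2 = Z at *
    rw [div_mul_cancel₀ _ h.ne', div_pow, div_mul_eq_mul_div, div_le_iff₀ (by positivity)] at h1
    have h2 : Real.exp m ≤ 3 ^ m := by
      rw [← mul_one (m : ℝ), Real.exp_nat_mul]
      exact pow_le_pow_left₀ (by positivity) (Real.exp_one_lt_d9.le.trans (by norm_num)) _
    calc haf W * m ^ m = m ^ m * haf W := mul_comm _ _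
      _ ≤ _ := h1
      _ ≤ _ := mul_le_mul_of_nonneg_right h2 (by positivity)

theorem prod_uu {m : ℕ} (w : Fin (2 * m) → Fin (2 * m) → ℕ) (D : ℕ)
    {M : Finset (Fin (2 * m) × Fin (2 * m))} (hM : M ∈ PMs (2 * m))
    (L : List (Finset (Fin (2 * m)))) (hL : ∀ S ∈ L, Odd S.card) :
    (∏ q ∈ M, w q.1 q.2) * ((D + 1) * D ^ (m - 1)) ^ L.length ≤ ∏ q ∈ M, uu w D L q.1 q.2 := by
  induction L with
  | nil => simp [uu, cnt]
  | cons S R ih =>
    simp only [uu_perm w D (List.Perm.refl (S :: R)), prod_mul_distrib, List.length_cons, pow_succ,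
      ← mul_assoc _ (_ ^ R.length)]
    refine Nat.mul_le_mul (ih fun T hT => hL T (List.mem_cons_of_mem _ hT)) ?_
    obtain ⟨q, hq, hc⟩ := pm_cross hM (hL S List.mem_cons_self)
    rw [← mul_prod_erase _ _ hq, if_pos hc]
    refine Nat.mul_le_mul_left _ ?_
    have := pow_card_le_prod (M.erase q)
      (fun q => if ¬ (q.1 ∈ S ↔ q.2 ∈ S) then D + 1 else D) D (fun q _ => by split_ifs <;> omega)
    rwa [card_erase_of_mem hq, pm_card hM] at this

theorem up {m : ℕ} (hm : 1 ≤ m) (w : Fin (2 * m) → Fin (2 * m) → ℕ) (D : ℕ)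
    (L : List (Finset (Fin (2 * m)))) (hlen : L.length = D ^ 2) (hL : ∀ S ∈ L, Odd S.card) :
    multNumPerfectMatchings w * den m D ≤ 3 ^ m * ZZ w D L ^ m := by
  have h1 : multNumPerfectMatchings w * ((D + 1) * D ^ (m - 1)) ^ (D ^ 2) ≤
      multNumPerfectMatchings (uu w D L) := by
    unfold multNumPerfectMatchings
    rw [sum_mul]
    exact sum_le_sum fun M hM => hlen ▸ prod_uu w D hM L hL
  have h2 := haf_le hm (fun a b => (uu w D L a b : ℝ)) (fun _ _ => by positivity)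
  rw [haf_cast] at h2
  have h3 : multNumPerfectMatchings (uu w D L) * m ^ m ≤ 3 ^ m * ZZ w D L ^ m := by
    unfold ZZ
    exact_mod_cast h2
  refine le_trans ?_ h3
  unfold den
  rw [← mul_assoc]
  refine Nat.mul_le_mul_right _ (le_trans (le_of_eq ?_) h1)
  rw [mul_pow, ← pow_mul, mul_comm (m - 1)]

theorem prod_add_le {ι : Type} (s : Finset ι) (w : ι → ℝ) (hw : ∀ i, 0 ≤ w i) (ε : ℝ) (h0 : 0 ≤ ε)
    (h1 : ε ≤ 1) : ∏ i ∈ s, (w i + ε) ≤ ∏ i ∈ s, w i + ε * (∏ i ∈ s, (w i + 1) - ∏ i ∈ s, w i) := by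
  classical
  induction s using Finset.induction_on with
  | empty => simp
  | insert a s ha ih =>
    rw [prod_insert ha, prod_insert ha, prod_insert ha]
    have h2 : ∏ i ∈ s, w i ≤ ∏ i ∈ s, (w i + 1) :=
      prod_le_prod (fun i _ => hw i) fun i _ => by linarith
    have h3 := mul_le_mul_of_nonneg_left ih (add_nonneg (hw a) h0)
    have h4 := mul_nonneg (mul_nonneg h0 (sub_nonneg.2 h1)) (sub_nonneg.2 h2)
    nlinarith

theorem haf_add_le (w : Fin n → Fin n → ℝ) (hw : ∀ a b, 0 ≤ w a b) (ε : ℝ) (h0 : 0 ≤ ε)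
    (h1 : ε ≤ 1) : haf (fun a b => w a b + ε) ≤ haf w + ε * haf (fun a b => w a b + 1) := by
  unfold haf
  rw [mul_sum, ← sum_add_distrib]
  refine sum_le_sum fun M _ => ?_
  have h2 := prod_add_le M (fun q => w q.1 q.2) (fun q => hw _ _) ε h0 h1
  have h3 : 0 ≤ ε * ∏ q ∈ M, w q.1 q.2 := mul_nonneg h0 (prod_nonneg fun _ _ => hw _ _)
  linarith

theorem sum_cnt_le (x : Fin n → Fin n → ℝ) (hx : ∀ a b, x a b = x b a) (β : ℝ)
    (L : List (Finset (Fin n))) (hL : ∀ S ∈ L, cut x S ≤ β) :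
    ∑ q ∈ ltPairs n, x q.1 q.2 * cnt L q.1 q.2 ≤ L.length * β := by
  induction L with
  | nil => simp [cnt]
  | cons S R ih =>
    have h1 := ih fun T hT => hL T (List.mem_cons_of_mem _ hT)
    have h2 := hL S List.mem_cons_self
    rw [← cut_eq hx, sum_filter] at h2
    have h3 : ∑ q ∈ ltPairs n, x q.1 q.2 * cnt (S :: R) q.1 q.2 =
        ∑ q ∈ ltPairs n, x q.1 q.2 * cnt R q.1 q.2 +
          ∑ q ∈ ltPairs n, if ¬ (q.1 ∈ S ↔ q.2 ∈ S) then x q.1 q.2 else 0 := by
      rw [← sum_add_distrib]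
      refine sum_congr rfl fun q _ => ?_
      unfold cnt
      rw [List.countP_cons]
      by_cases h : (q.1 ∈ S ↔ q.2 ∈ S) <;> simp [h, mul_add]
    rw [h3, List.length_cons]
    push_cast
    linarith

end Crest.Agent.R304K
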